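import Vale.Agent.P225.Sched.Compare.Diag
import Vale.Agent.P225.Sched.Steps
import Vale.Agent.P225.ODE.Defs

/-!
P225: the comparison of the regular solutions of one degree with the scalar flow of the weight
blocks: definitions.

`gam = Phi D⁻¹`, where `D` is the diagonal flow of scalar Riccati solutions `q m` of `lamW`. A left
squash multiplies it by `stepOp`, and `prefixOp` is the product of these along a list of steps.
-/

namespace Vale.Agent.P225.Sched

noncomputable section

variable (H : Harm) {j : ℕ}

/-- Scalar exponents of the weight blocks: the regular solutions of `lamW`. -/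
structure IsBlockRate (sh : Shape) (j : ℕ) (q : ℕ → ℝ → ℝ) : Prop where
  ric : ∀ m ≤ j, Barrier.IsRic sh.drift (lamW sh j m) (q m)
  start : ∀ m ≤ j, ∀ t ≤ 0, q m t = j
  nonneg : ∀ m ≤ j, ∀ t, 0 ≤ q m t

/-- The coefficients are those of the shape. -/
structure IsShapeCoeff (sh : Shape) (j : ℕ) (c : ODE.Coeff (V j)) : Prop where
  lam : ∀ t, c.lam t = sh.lam H j t
  drift : ∀ t, c.s t = sh.drift t
  exponent : c.e = (j : ℝ)

/-- The diagonal scalar flow. -/
def scalarFlow (q : ℕ → ℝ → ℝ) (j : ℕ) (t : ℝ) : Op j j :=
  diagW H j fun m => Real.exp (∫ u in (0 : ℝ)..t, q m u)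

/-- Its inverse. -/
def scalarFlowInv (q : ℕ → ℝ → ℝ) (j : ℕ) (t : ℝ) : Op j j :=
  diagW H j fun m => Real.exp (-∫ u in (0 : ℝ)..t, q m u)

/-- The regular solutions relative to the scalar flow. -/
def gam (c : ODE.Coeff (V j)) (q : ℕ → ℝ → ℝ) (t : ℝ) : Op j j :=
  c.Phi t * scalarFlowInv H q j t

/-- The inverse of `gam`. -/
def gamInv (c : ODE.Coeff (V j)) (q : ℕ → ℝ → ℝ) (t : ℝ) : Op j j :=
  scalarFlow H q j t * c.Psi t

/-- The integral of a unit bump of plateau coefficient `c`. -/
def bumpMass (c : ℝ) : ℝ := ∫ t in (0 : ℝ)..(2 + max c 0), bump 0 1 (2 + max c 0) t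

/-- The response of degree `j` to a unit of squash at the final radius. -/
def kappa (j : ℕ) : ℝ := 64 / 49 / (2 + 2 * rateInf j)

/-- The effect of one step on `gam`. -/
def stepOp (j : ℕ) : Step → Op j j
  | Step.micro a z c => NormedSpace.exp ((kappa j * z * bumpMass c) • bumpOp H j a)
  | _ => 1

/-- The inverse of `stepOp`. -/
def stepOpInv (j : ℕ) : Step → Op j j
  | Step.micro a z c => NormedSpace.exp ((-(kappa j * z * bumpMass c)) • bumpOp H j a)
  | _ => 1

/-- The effect of a list of steps, the first one acting first. -/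
def prefixOp (j : ℕ) : List Step → Op j j
  | [] => 1
  | s :: l => prefixOp j l * stepOp H j s

/-- The inverse of `prefixOp`. -/
def prefixOpInv (j : ℕ) : List Step → Op j j
  | [] => 1
  | s :: l => stepOpInv H j s * prefixOpInv j l

/-- The comparison: `gam` and its inverse are bounded uniformly in time and in the first size, and
follow the products of the step effects. -/
def CompareStmt : Prop :=
  ∀ (steps : List Step) (j : ℕ), 1 ≤ j → prefixOp H j steps = 1 →
    ∃ K : ℝ, ∀ N : ℕ, (Params.mk steps N).Ok →
      ∀ (sh : Shape) (q : ℕ → ℝ → ℝ) (c : ODE.Coeff (V j)),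
        sh.χ = (Params.mk steps N).chi → sh.β = (Params.mk steps N).comp none →
          (∀ a, sh.γ a = (Params.mk steps N).comp (some a)) →
            IsBlockRate sh j q → IsShapeCoeff H sh j c →
              (∀ t, ‖gam H c q t‖ ≤ K ∧ ‖gamInv H c q t‖ ≤ K) ∧
                ∀ i k, k ≤ steps.length + 1 →
                  ‖gam H c q ((Params.mk steps N).start i k) - prefixOp H j (steps.take k)‖ ≤
                      K / ((N : ℝ) + 1) ^ 2 ∧
                    ‖gamInv H c q ((Params.mk steps N).start i k) -
                        prefixOpInv H j (steps.take k)‖ ≤ K / ((N : ℝ) + 1) ^ 2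

end

end Vale.Agent.P225.Sched
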