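import Vale.Agent.P225.Sched.Compare.StepNear

/-!
P225: the comparison along the whole schedule (`CompareStmt`).
-/

namespace Vale.Agent.P225.Sched

open Set
open scoped RealInnerProductSpace

noncomputable section

variable (H : Harm) {j : ℕ}

theorem stepOp_mul_inv (s : Step) :
    stepOp H j s * stepOpInv H j s = 1 ∧ stepOpInv H j s * stepOp H j s = 1 := by
  cases s with
  | micro a z e =>
    simp only [stepOp, stepOpInv]
    refine ⟨?_, exp_neg_mul_exp _ _⟩
    have := exp_neg_mul_exp (bumpOp H j a) (-(kappa j * z * bumpMass e))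
    rwa [neg_neg] at this
  | round e => simp [stepOp, stepOpInv]
  | gap e => simp [stepOp, stepOpInv]
  | cross z e => simp [stepOp, stepOpInv]
  | slot => simp [stepOp, stepOpInv]
  | stay => simp [stepOp, stepOpInv]

theorem prefixOp_append (l m : List Step) :
    prefixOp H j (l ++ m) = prefixOp H j m * prefixOp H j l := by
  induction l with
  | nil => simp [prefixOp]
  | cons s l ih => simp [prefixOp, ih, mul_assoc]

theorem prefixOp_mul_inv (l : List Step) :
    prefixOp H j l * prefixOpInv H j l = 1 ∧ prefixOpInv H j l * prefixOp H j l = 1 := by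
  induction l with
  | nil => simp [prefixOp, prefixOpInv]
  | cons s l ih =>
    obtain ⟨h1, h2⟩ := stepOp_mul_inv H (j := j) s
    simp only [prefixOp, prefixOpInv]
    constructor
    · rw [mul_assoc, ← mul_assoc (stepOp H j s), h1, one_mul, ih.1]
    · rw [mul_assoc, ← mul_assoc (prefixOpInv H j l), ih.2, one_mul, h2]

theorem prefixOp_stay (l : List Step) : prefixOp H j (l ++ [Step.stay]) = prefixOp H j l := by
  rw [prefixOp_append]
  simp [prefixOp, stepOp]

theorem prefixOp_take_succ (l : List Step) {k : ℕ} (hk : k < l.length) :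
    prefixOp H j (l.take (k + 1)) = stepOp H j (l.getD k Step.stay) * prefixOp H j (l.take k) := by
  rw [List.take_succ_eq_append_getElem hk, prefixOp_append, List.getD_eq_getElem _ _ hk]
  simp [prefixOp]

/-! ### The comparison -/

namespace Params

variable {p : Params} {q : ℕ → ℝ → ℝ} {c : ODE.Coeff (V j)} {H}

theorem gam_early (h : IsBlockRate p.shape j q) (hc : IsShapeCoeff H p.shape j c) {t : ℝ}
    (ht : t ≤ (p.N0 : ℝ)) : gam H c q t = 1 ∧ gamInv H c q t = 1 := by
  have h0 : gamInv H c q 0 = 1 := by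
    have e1 : scalarFlow H q j 0 = 1 := by
      simp only [scalarFlow, intervalIntegral.integral_same, Real.exp_zero, diagW_one]
    have e2 : c.Psi 0 = 1 := by
      have := c.Psi_mul_Phi 0
      rwa [c.Phi_zero, mul_one] at this
    rw [gamInv, e1, e2, one_mul]
  have h1 : gam H c q 0 = 1 := by
    have := gam_mul_gamInv (H := H) (c := c) (q := q) 0
    rwa [h0, mul_one] at this
  have hg : gam H c q t = 1 := by
    have key : ∀ a b : ℝ, a ≤ b → b ≤ (p.N0 : ℝ) →
        gam H c q b * gamInv H c q a = 1 ∧ gam H c q a * gamInv H c q b = 1 := by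
      intro a b hab hb
      obtain ⟨e1, e2⟩ := norm_transfer_sub_one_le h hc (F := fun _ => 0) (f := fun _ => 0) hab
        (fun x => hasDerivAt_const x 0) fun x hx => by
          rw [p.excess_early h hc (hx.2.trans hb), norm_zero]
      simp only [Real.exp_zero, sub_self, norm_le_zero_iff, sub_eq_zero] at e1 e2
      exact ⟨e1, e2⟩
    rcases le_total 0 t with h' | h'
    · have := (key 0 t h' ht).1
      rwa [h0, mul_one] at this
    · have := (key t 0 h' (Nat.cast_nonneg _)).2
      rwa [h0, mul_one] at this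
  refine ⟨hg, ?_⟩
  have := gamInv_mul_gam (H := H) (c := c) (q := q) t
  rwa [hg, mul_one] at this

/-- Bounds on one period, relative to its start. -/
theorem Ok.period_near (h : p.Ok) (hq : IsBlockRate p.shape j q) (hc : IsShapeCoeff H p.shape j c)
    {B : ℝ} (hB : 1 ≤ B) (hflow : Real.exp (p.flowC j) ≤ B)
    (hop : ∀ s ∈ p.list, ‖stepOp H j s‖ ≤ B ∧ ‖stepOpInv H j s‖ ≤ B) (hC : 0 ≤ p.stepC j) (i : ℕ) :
    ∀ k ≤ p.len,
      ‖gam H c q (p.start i k) * gamInv H c q (p.start i 0) - prefixOp H j (p.list.take k)‖ ≤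
          (2 * B) ^ k * (p.stepC j / ((i + p.N0 : ℕ) : ℝ) ^ 3) ∧
        ‖gam H c q (p.start i k) * gamInv H c q (p.start i 0)‖ ≤ B ^ k ∧
        ‖gam H c q (p.start i 0) * gamInv H c q (p.start i k)‖ ≤ B ^ k ∧
        ‖prefixOp H j (p.list.take k)‖ ≤ B ^ k ∧ ‖prefixOpInv H j (p.list.take k)‖ ≤ B ^ k := by
  set ε := p.stepC j / ((i + p.N0 : ℕ) : ℝ) ^ 3
  have hε : 0 ≤ ε := by positivity
  intro k
  induction k with
  | zero =>
    intro _
    simp [gam_mul_gamInv, prefixOp, prefixOpInv, hε]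
  | succ k ih =>
    intro hk
    have hk' : k < p.list.length := hk
    obtain ⟨i1, i2, i3, i4, i5⟩ := ih (Nat.le_of_succ_le hk)
    obtain ⟨hst, hsz⟩ := p.start_step i k hk'
    have hab : p.start i k ≤ p.start i (k + 1) :=
      (p.time_strictMono (Nat.lt_succ_self (i * p.len + k))).le
    obtain ⟨v1, v2⟩ := h.norm_transfer_step hq hc (m := i * p.len + k) (t := p.start i (k + 1))
      hab le_rfl
    have vnear := h.step_near hq hc (i * p.len + k)
    rw [hst, hsz] at vnear
    set s := p.list.getD k Step.stay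
    have hsmem : s ∈ p.list := by
      simp only [s, List.getD_eq_getElem _ _ hk']
      exact List.getElem_mem hk'
    set Vk := gam H c q (p.start i (k + 1)) * gamInv H c q (p.start i k)
    set Uk := gam H c q (p.start i k) * gamInv H c q (p.start i (k + 1))
    have hV : ‖Vk‖ ≤ B := v1.trans hflow
    have hU : ‖Uk‖ ≤ B := v2.trans hflow
    have eG : gam H c q (p.start i (k + 1)) * gamInv H c q (p.start i 0) =
        Vk * (gam H c q (p.start i k) * gamInv H c q (p.start i 0)) := by
      simp only [Vk]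
      rw [mul_assoc (gam H c q (p.start i (k + 1))), ← mul_assoc (gamInv H c q (p.start i k)),
        gamInv_mul_gam, one_mul]
    have eU : gam H c q (p.start i 0) * gamInv H c q (p.start i (k + 1)) =
        gam H c q (p.start i 0) * gamInv H c q (p.start i k) * Uk := by
      simp only [Uk]
      rw [mul_assoc (gam H c q (p.start i 0)), ← mul_assoc (gamInv H c q (p.start i k)),
        gamInv_mul_gam, one_mul]
    have eP := prefixOp_take_succ H (j := j) p.list hk'
    have hB0 : 0 ≤ B := by linarith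
    refine ⟨?_, ?_, ?_, ?_, ?_⟩
    · rw [eG, eP, show ∀ a b x y : Op j j, a * b - x * y = a * (b - y) + (a - x) * y from
        fun a b x y => by rw [mul_sub, sub_mul]; abel]
      refine (norm_add_le _ _).trans ?_
      refine (add_le_add ((norm_mul_le _ _).trans (mul_le_mul hV i1 (norm_nonneg _) hB0))
        ((norm_mul_le _ _).trans (mul_le_mul vnear i4 (norm_nonneg _) hε))).trans ?_
      have h1 : B ^ k ≤ B * (2 * B) ^ k :=
        (pow_le_pow_left₀ hB0 (by linarith) k).trans (le_mul_of_one_le_left (by positivity) hB)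
      calc B * ((2 * B) ^ k * ε) + ε * B ^ k ≤ B * ((2 * B) ^ k * ε) + ε * (B * (2 * B) ^ k) := by
            gcongr
        _ = (2 * B) ^ (k + 1) * ε := by rw [pow_succ]; ring
    · rw [eG]; refine le_of_le_of_eq ?_ (pow_succ' B k).symm
      exact (norm_mul_le _ _).trans (mul_le_mul hV i2 (norm_nonneg _) hB0)
    · rw [eU]; refine le_of_le_of_eq ?_ (pow_succ B k).symm
      exact (norm_mul_le _ _).trans (mul_le_mul i3 hU (norm_nonneg _) (by positivity))
    · rw [eP]; refine le_of_le_of_eq ?_ (pow_succ' B k).symm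
      exact (norm_mul_le _ _).trans (mul_le_mul (hop s hsmem).1 i4 (norm_nonneg _) hB0)
    · have e : prefixOpInv H j (p.list.take (k + 1)) =
          prefixOpInv H j (p.list.take k) * stepOpInv H j s := by
        have h1 := (prefixOp_mul_inv H (j := j) (p.list.take (k + 1))).2
        have h2 := (prefixOp_mul_inv H (j := j) (p.list.take k)).1
        have h3 := (stepOp_mul_inv H (j := j) s).1
        rw [eP] at h1
        calc prefixOpInv H j (p.list.take (k + 1))
            = prefixOpInv H j (p.list.take (k + 1)) * (stepOp H j s *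
              (prefixOp H j (p.list.take k) * prefixOpInv H j (p.list.take k)) *
              stepOpInv H j s) := by rw [h2, mul_one, h3, mul_one]
          _ = (prefixOpInv H j (p.list.take (k + 1)) * (stepOp H j s *
              prefixOp H j (p.list.take k))) *
              (prefixOpInv H j (p.list.take k) * stepOpInv H j s) := by simp only [mul_assoc]
          _ = _ := by rw [h1, one_mul]
      rw [e]; refine le_of_le_of_eq ?_ (pow_succ B k).symm
      exact (norm_mul_le _ _).trans (mul_le_mul i5 (hop s hsmem).2 (norm_nonneg _) (by positivity))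

theorem sum_inv_cube_le (n₀ : ℕ) (hn : 1 ≤ n₀) (i : ℕ) :
    ∑ r ∈ Finset.range i, 1 / ((r + n₀ : ℕ) : ℝ) ^ 3 ≤
      2 / (n₀ : ℝ) ^ 2 - 2 / ((i + n₀ : ℕ) : ℝ) ^ 2 := by
  induction i with
  | zero => simp
  | succ i ih =>
    rw [Finset.sum_range_succ]
    have hx : (1 : ℝ) ≤ ((i + n₀ : ℕ) : ℝ) := by exact_mod_cast le_add_left hn
    have e : ((i + 1 + n₀ : ℕ) : ℝ) = ((i + n₀ : ℕ) : ℝ) + 1 := by push_cast; ring
    rw [e]
    set x := ((i + n₀ : ℕ) : ℝ)
    have key : 1 / x ^ 3 ≤ 2 / x ^ 2 - 2 / (x + 1) ^ 2 := by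
      rw [div_sub_div _ _ (by positivity) (by positivity),
        div_le_div_iff₀ (by positivity) (by positivity)]
      nlinarith [pow_le_pow_left₀ zero_le_one hx 2, pow_le_pow_left₀ zero_le_one hx 3,
        pow_le_pow_left₀ zero_le_one hx 4, mul_le_mul_of_nonneg_left hx (pow_nonneg (by linarith : (0:ℝ) ≤ x) 4)]
    linarith

theorem norm_mul_sub_one_le {G A : Op j j} {s e : ℝ} (hG : ‖G - 1‖ ≤ e)
    (hA : ‖A - 1‖ ≤ Real.exp s - 1) :
    ‖G * A - 1‖ ≤ Real.exp (s + e) - 1 ∧ ‖A * G - 1‖ ≤ Real.exp (s + e) - 1 := by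
  have he : 0 ≤ e := (norm_nonneg _).trans hG
  have hs : 0 ≤ Real.exp s - 1 := (norm_nonneg _).trans hA
  have hb : e * (Real.exp s - 1) + e + (Real.exp s - 1) ≤ Real.exp (s + e) - 1 := by
    rw [Real.exp_add]
    nlinarith [mul_le_mul_of_nonneg_left (Real.add_one_le_exp e) (Real.exp_pos s).le]
  constructor <;> refine le_trans ?_ hb
  · rw [show G * A - 1 = (G - 1) * (A - 1) + (G - 1) + (A - 1) by
      rw [sub_mul, mul_sub, mul_one, one_mul]; abel]
    exact (norm_add_le _ _).trans (add_le_add ((norm_add_le _ _).trans (add_le_add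
      ((norm_mul_le _ _).trans (mul_le_mul hG hA (norm_nonneg _) he)) hG)) hA)
  · rw [show A * G - 1 = (A - 1) * (G - 1) + (G - 1) + (A - 1) by
      rw [sub_mul, mul_sub, mul_one, one_mul]; abel]
    exact (norm_add_le _ _).trans (add_le_add ((norm_add_le _ _).trans (add_le_add
      ((norm_mul_le _ _).trans (le_of_le_of_eq (mul_le_mul hA hG (norm_nonneg _) hs)
        (mul_comm _ _))) hG)) hA)

/-- The comparison for given parameters. -/
theorem Ok.compare (h : p.Ok) (hq : IsBlockRate p.shape j q) (hc : IsShapeCoeff H p.shape j c)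
    (hper : prefixOp H j p.list = 1) {B : ℝ} (hB : 1 ≤ B) (hflow : Real.exp (p.flowC j) ≤ B)
    (hop : ∀ s ∈ p.list, ‖stepOp H j s‖ ≤ B ∧ ‖stepOpInv H j s‖ ≤ B)
    {S K₀ : ℝ} (hS : S = 2 * ((2 * B) ^ p.len * B ^ p.len * B ^ p.len * p.stepC j))
    (hK₀ : K₀ = S * Real.exp S * (1 + S) + B ^ p.len * (S * Real.exp S)) :
    (∀ t, ‖gam H c q t‖ ≤ B * (B ^ p.len + K₀) ∧ ‖gamInv H c q t‖ ≤ B * (B ^ p.len + K₀)) ∧
      ∀ i k, k ≤ p.len →
        ‖gam H c q (p.start i k) - prefixOp H j (p.list.take k)‖ ≤ K₀ / (p.N0 : ℝ) ^ 2 ∧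
          ‖gamInv H c q (p.start i k) - prefixOpInv H j (p.list.take k)‖ ≤
            K₀ / (p.N0 : ℝ) ^ 2 := by
  have hN := p.one_le_N0
  have hN2 : (0 : ℝ) < (p.N0 : ℝ) ^ 2 := by positivity
  have hC : 0 ≤ p.stepC j := by
    have h0 := (norm_nonneg _).trans (h.step_near hq hc 0)
    rcases div_nonneg_iff.1 h0 with ⟨e, -⟩ | ⟨-, e⟩
    · exact e
    · linarith [one_le_pow₀ (M₀ := ℝ) (p.size_ge_one 0) (n := 3)]
  have hB0 : 0 ≤ B := by linarith
  set E := (2 * B) ^ p.len * B ^ p.len * B ^ p.len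
  have hE2 : (2 * B) ^ p.len ≤ E := by
    simp only [E, mul_assoc]
    exact le_mul_of_one_le_right (by positivity) (one_le_mul_of_one_le_of_one_le (one_le_pow₀ hB)
      (one_le_pow₀ hB))
  have hS0 : 0 ≤ S := by rw [hS]; positivity
  have hfull : p.list.take p.len = p.list := List.take_length
  have hinv : prefixOpInv H j p.list = 1 := by
    have := (prefixOp_mul_inv H (j := j) p.list).2
    rwa [hper, mul_one] at this
  -- errors within a period
  have near : ∀ i k, k ≤ p.len →
      ‖gam H c q (p.start i k) * gamInv H c q (p.start i 0) - prefixOp H j (p.list.take k)‖ ≤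
          E * p.stepC j * (1 / ((i + p.N0 : ℕ) : ℝ) ^ 3) ∧
        ‖gam H c q (p.start i 0) * gamInv H c q (p.start i k) -
            prefixOpInv H j (p.list.take k)‖ ≤ E * p.stepC j * (1 / ((i + p.N0 : ℕ) : ℝ) ^ 3) := by
    intro i k hk
    obtain ⟨e1, -, e3, -, e5⟩ := h.period_near hq hc hB hflow hop hC i k hk
    set ε := p.stepC j / ((i + p.N0 : ℕ) : ℝ) ^ 3
    have hε : E * p.stepC j * (1 / ((i + p.N0 : ℕ) : ℝ) ^ 3) = E * ε := by simp only [ε]; ring
    rw [hε]
    have hk2 : (2 * B) ^ k ≤ (2 * B) ^ p.len := pow_le_pow_right₀ (by linarith) hk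
    have hk1 : B ^ k ≤ B ^ p.len := pow_le_pow_right₀ hB hk
    refine ⟨e1.trans (mul_le_mul_of_nonneg_right (hk2.trans hE2) (by positivity)), ?_⟩
    set G' := gam H c q (p.start i k) * gamInv H c q (p.start i 0)
    set U' := gam H c q (p.start i 0) * gamInv H c q (p.start i k)
    set P := prefixOp H j (p.list.take k)
    set P' := prefixOpInv H j (p.list.take k)
    have hUG : U' * G' = 1 := by
      simp only [U', G']
      rw [mul_assoc (gam H c q (p.start i 0)), ← mul_assoc (gamInv H c q (p.start i k)),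
        gamInv_mul_gam, one_mul, gam_mul_gamInv]
    have e : U' - P' = U' * (P - G') * P' := by
      rw [mul_sub, sub_mul, mul_assoc U' P, (prefixOp_mul_inv H _).1, mul_one, hUG, one_mul]
    rw [e]
    refine (norm_mul_le _ _).trans ?_
    refine (mul_le_mul ((norm_mul_le _ _).trans (mul_le_mul e3 ((norm_sub_rev P G').trans_le e1)
      (norm_nonneg _) (by positivity))) e5 (norm_nonneg _) (by positivity)).trans ?_
    calc B ^ k * ((2 * B) ^ k * ε) * B ^ k
        ≤ B ^ p.len * ((2 * B) ^ p.len * ε) * B ^ p.len := by gcongr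
      _ = E * ε := by simp only [E]; ring
  -- the period starts
  have starts : ∀ i,
      ‖gam H c q (p.start i 0) - 1‖ ≤ Real.exp (∑ r ∈ Finset.range i,
          E * p.stepC j * (1 / ((r + p.N0 : ℕ) : ℝ) ^ 3)) - 1 ∧
        ‖gamInv H c q (p.start i 0) - 1‖ ≤ Real.exp (∑ r ∈ Finset.range i,
          E * p.stepC j * (1 / ((r + p.N0 : ℕ) : ℝ) ^ 3)) - 1 := by
    intro i
    induction i with
    | zero =>
      obtain ⟨e1, e2⟩ := p.gam_early hq hc (t := p.start 0 0) (by simp [start, time])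
      simp [e1, e2]
    | succ i ih =>
      obtain ⟨n1, n2⟩ := near i p.len le_rfl
      rw [hfull, hper] at n1
      rw [hfull, hinv] at n2
      rw [Finset.sum_range_succ, p.start_zero_succ]
      constructor
      · have := (norm_mul_sub_one_le n1 ih.1).1
        rwa [mul_assoc, gamInv_mul_gam, mul_one] at this
      · have := (norm_mul_sub_one_le n2 ih.2).2
        rwa [← mul_assoc, gamInv_mul_gam, one_mul] at this
  have hsum : ∀ i, Real.exp (∑ r ∈ Finset.range i,
      E * p.stepC j * (1 / ((r + p.N0 : ℕ) : ℝ) ^ 3)) - 1 ≤ S * Real.exp S / (p.N0 : ℝ) ^ 2 := by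
    intro i
    have h1 := sum_inv_cube_le p.N0 (by simp [N0]) i
    have h2 : 0 ≤ 2 / ((i + p.N0 : ℕ) : ℝ) ^ 2 := by positivity
    have h3 : ∑ r ∈ Finset.range i, E * p.stepC j * (1 / ((r + p.N0 : ℕ) : ℝ) ^ 3) ≤
        S / (p.N0 : ℝ) ^ 2 := by
      rw [← Finset.mul_sum]
      refine (mul_le_mul_of_nonneg_left (show _ ≤ 2 / (p.N0 : ℝ) ^ 2 by linarith)
        (by positivity)).trans (le_of_eq ?_)
      rw [hS]; ring
    have h4 : S / (p.N0 : ℝ) ^ 2 ≤ S := div_le_self hS0 (one_le_pow₀ hN)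
    refine (exp_sub_one_le (Finset.sum_nonneg fun r _ => by positivity) (h3.trans h4)).trans ?_
    rw [mul_div_right_comm]
    exact mul_le_mul_of_nonneg_right h3 (Real.exp_pos _).le
  have hK0 : 0 ≤ K₀ := by rw [hK₀]; positivity
  have one : ∀ (i k : ℕ), k ≤ p.len → ∀ (G A P : Op j j),
      ‖G - P‖ ≤ E * p.stepC j * (1 / ((i + p.N0 : ℕ) : ℝ) ^ 3) → ‖A - 1‖ ≤
        S * Real.exp S / (p.N0 : ℝ) ^ 2 → ‖P‖ ≤ B ^ p.len →
      ‖G * A - P‖ ≤ K₀ / (p.N0 : ℝ) ^ 2 ∧ ‖A * G - P‖ ≤ K₀ / (p.N0 : ℝ) ^ 2 := by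
    intro i k _ G A P hG hA hP
    have hA1 : ‖A‖ ≤ Real.exp S * (1 + S) := by
      have := norm_add_le (A - 1) 1
      rw [sub_add_cancel, norm_one] at this
      have h5 : S * Real.exp S / (p.N0 : ℝ) ^ 2 ≤ S * Real.exp S :=
        div_le_self (by positivity) (one_le_pow₀ hN)
      nlinarith [Real.one_le_exp hS0]
    have hi : (p.N0 : ℝ) ^ 2 ≤ ((i + p.N0 : ℕ) : ℝ) ^ 3 := by
      have hle : (p.N0 : ℝ) ≤ ((i + p.N0 : ℕ) : ℝ) := by exact_mod_cast Nat.le_add_left _ _
      exact (pow_le_pow_left₀ (by linarith) hle 2).trans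
        (pow_le_pow_right₀ (hN.trans hle) (by norm_num))
    have hG' : ‖G - P‖ ≤ E * p.stepC j / (p.N0 : ℝ) ^ 2 := by
      refine hG.trans ?_
      rw [mul_one_div]
      exact div_le_div_of_nonneg_left (by positivity) hN2 hi
    have hfin : E * p.stepC j / (p.N0 : ℝ) ^ 2 * (Real.exp S * (1 + S)) +
        B ^ p.len * (S * Real.exp S / (p.N0 : ℝ) ^ 2) ≤ K₀ / (p.N0 : ℝ) ^ 2 := by
      rw [hK₀, mul_div_assoc', div_mul_eq_mul_div, ← add_div]
      refine div_le_div_of_nonneg_right (add_le_add ?_ le_rfl) hN2.le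
      have hES : E * p.stepC j = S / 2 := by rw [hS]; ring
      rw [hES]
      nlinarith [Real.exp_pos S, mul_nonneg hS0 (Real.exp_pos S).le,
        mul_nonneg (mul_nonneg hS0 hS0) (Real.exp_pos S).le]
    have hEC : 0 ≤ E * p.stepC j / (p.N0 : ℝ) ^ 2 := by positivity
    refine ⟨le_trans ?_ hfin, le_trans ?_ hfin⟩
    · rw [show G * A - P = (G - P) * A + P * (A - 1) by rw [sub_mul, mul_sub, mul_one]; abel]
      exact (norm_add_le _ _).trans (add_le_add
        ((norm_mul_le _ _).trans (mul_le_mul hG' hA1 (norm_nonneg _) hEC))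
        ((norm_mul_le _ _).trans (mul_le_mul hP hA (norm_nonneg _) (by positivity))))
    · rw [show A * G - P = A * (G - P) + (A - 1) * P by rw [sub_mul, mul_sub, one_mul]; abel]
      exact (norm_add_le _ _).trans (add_le_add
        ((norm_mul_le _ _).trans (le_of_le_of_eq (mul_le_mul hA1 hG' (norm_nonneg _) (by positivity))
          (mul_comm _ _)))
        ((norm_mul_le _ _).trans (le_of_le_of_eq (mul_le_mul hA hP (norm_nonneg _) (by positivity))
          (mul_comm _ _))))
  have key : ∀ i k, k ≤ p.len →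
      ‖gam H c q (p.start i k) - prefixOp H j (p.list.take k)‖ ≤ K₀ / (p.N0 : ℝ) ^ 2 ∧
        ‖gamInv H c q (p.start i k) - prefixOpInv H j (p.list.take k)‖ ≤
          K₀ / (p.N0 : ℝ) ^ 2 := by
    intro i k hk
    obtain ⟨n1, n2⟩ := near i k hk
    obtain ⟨-, -, -, p1, p2⟩ := h.period_near hq hc hB hflow hop hC i k hk
    obtain ⟨s1, s2⟩ := starts i
    have hk1 : B ^ k ≤ B ^ p.len := pow_le_pow_right₀ hB hk
    refine ⟨?_, ?_⟩
    · have := (one i k hk _ _ _ n1 (s1.trans (hsum i)) (p1.trans hk1)).1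
      rwa [mul_assoc, gamInv_mul_gam, mul_one] at this
    · have := (one i k hk _ _ _ n2 (s2.trans (hsum i)) (p2.trans hk1)).2
      rwa [← mul_assoc, gamInv_mul_gam, one_mul] at this
  refine ⟨fun t => ?_, key⟩
  have hL : 1 ≤ B ^ p.len + K₀ := by linarith [one_le_pow₀ (n := p.len) hB]
  rcases le_total t (p.N0 : ℝ) with ht | ht
  · obtain ⟨e1, e2⟩ := p.gam_early hq hc ht
    rw [e1, e2, norm_one]
    exact ⟨one_le_mul_of_one_le_of_one_le hB hL, one_le_mul_of_one_le_of_one_le hB hL⟩
  · obtain ⟨m, hm1, hm2⟩ := p.exists_index ht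
    obtain ⟨v1, v2⟩ := h.norm_transfer_step hq hc hm1 hm2.le
    have hk : m % p.len ≤ p.len := (Nat.mod_lt _ (by simp [len, list])).le
    obtain ⟨k1, k2⟩ := key (m / p.len) (m % p.len) hk
    obtain ⟨-, -, -, p1, p2⟩ := h.period_near hq hc hB hflow hop hC (m / p.len) (m % p.len) hk
    rw [show p.start (m / p.len) (m % p.len) = p.time m by
      simp [start, Nat.div_add_mod']] at k1 k2
    have hk1 : B ^ (m % p.len) ≤ B ^ p.len := pow_le_pow_right₀ hB hk
    have hK : K₀ / (p.N0 : ℝ) ^ 2 ≤ K₀ := div_le_self hK0 (one_le_pow₀ hN)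
    have g1 : ‖gam H c q (p.time m)‖ ≤ B ^ p.len + K₀ :=
      (norm_le_norm_add_norm_sub' _ _).trans (add_le_add (p1.trans hk1) (k1.trans hK))
    have g2 : ‖gamInv H c q (p.time m)‖ ≤ B ^ p.len + K₀ :=
      (norm_le_norm_add_norm_sub' _ _).trans (add_le_add (p2.trans hk1) (k2.trans hK))
    constructor
    · rw [show gam H c q t = gam H c q t * gamInv H c q (p.time m) * gam H c q (p.time m) by
        rw [mul_assoc, gamInv_mul_gam, mul_one]]
      exact (norm_mul_le _ _).trans (mul_le_mul (v1.trans hflow) g1 (norm_nonneg _) hB0)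
    · rw [show gamInv H c q t = gamInv H c q (p.time m) * (gam H c q (p.time m) * gamInv H c q t) by
        rw [← mul_assoc, gamInv_mul_gam, one_mul]]
      exact ((norm_mul_le _ _).trans (mul_le_mul g2 (v2.trans hflow) (norm_nonneg _)
        (by linarith))).trans_eq (mul_comm _ _)

end Params

theorem prefixOpInv_stay (l : List Step) :
    prefixOpInv H j (l ++ [Step.stay]) = prefixOpInv H j l := by
  induction l with
  | nil => simp [prefixOpInv, stepOpInv]
  | cons s l ih => simp [prefixOpInv, ih]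

/-- The comparison along the whole schedule. -/
theorem compareStmt : CompareStmt H := by
  intro steps j _ hper
  let p₀ := Params.mk steps 0
  let B := Real.exp (p₀.flowC j) +
    (p₀.list.map fun s => ‖stepOp H j s‖ + ‖stepOpInv H j s‖).sum
  let S := 2 * ((2 * B) ^ p₀.len * B ^ p₀.len * B ^ p₀.len * p₀.stepC j)
  let K₀ := S * Real.exp S * (1 + S) + B ^ p₀.len * (S * Real.exp S)
  refine ⟨max (B * (B ^ p₀.len + K₀)) K₀, ?_⟩
  intro N h sh q c hχ hβ hγ hq hc
  obtain rfl : sh = (Params.mk steps N).shape := by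
    obtain ⟨χ, β, γ⟩ := sh
    obtain rfl : χ = _ := hχ
    obtain rfl : β = _ := hβ
    obtain rfl : γ = fun a => (Params.mk steps N).comp (some a) := funext hγ
    rfl
  have hsum : 0 ≤ (p₀.list.map fun s => ‖stepOp H j s‖ + ‖stepOpInv H j s‖).sum := by
    refine List.sum_nonneg fun x hx => ?_
    obtain ⟨s, -, rfl⟩ := List.mem_map.1 hx
    positivity
  have hfl : 0 ≤ p₀.flowC j := by
    have := p₀.devA_nonneg j
    have := p₀.durSum_nonneg
    unfold Params.flowC Params.devB
    positivity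
  have hB : 1 ≤ B := (Real.one_le_exp hfl).trans (le_add_of_nonneg_right hsum)
  have hflow : Real.exp ((Params.mk steps N).flowC j) ≤ B := le_add_of_nonneg_right hsum
  have hop : ∀ s ∈ (Params.mk steps N).list,
      ‖stepOp H j s‖ ≤ B ∧ ‖stepOpInv H j s‖ ≤ B := by
    intro s hs
    have h1 : ‖stepOp H j s‖ + ‖stepOpInv H j s‖ ≤
        (p₀.list.map fun s => ‖stepOp H j s‖ + ‖stepOpInv H j s‖).sum := by
      refine List.single_le_sum (fun x hx => ?_) _ (List.mem_map.2 ⟨s, hs, rfl⟩)
      obtain ⟨s', -, rfl⟩ := List.mem_map.1 hx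
      positivity
    have h2 : (p₀.list.map fun s => ‖stepOp H j s‖ + ‖stepOpInv H j s‖).sum ≤ B :=
      le_add_of_nonneg_left (Real.exp_pos _).le
    constructor <;> linarith [norm_nonneg (stepOp H j s), norm_nonneg (stepOpInv H j s)]
  obtain ⟨hbd, hnear⟩ := h.compare hq hc
    (show prefixOp H j (steps ++ [Step.stay]) = 1 by rw [prefixOp_stay, hper]) hB hflow hop
    (S := S) (K₀ := K₀) rfl rfl
  refine ⟨fun t => ⟨(hbd t).1.trans (le_max_left _ _), (hbd t).2.trans (le_max_left _ _)⟩,
    fun i k hk => ?_⟩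
  have hN : (((Params.mk steps N).N0 : ℕ) : ℝ) = (N : ℝ) + 1 := by simp [Params.N0]
  obtain ⟨n1, n2⟩ := hnear i k (by simpa [Params.len, Params.list] using hk)
  rw [hN] at n1 n2
  have take_eq : prefixOp H j ((steps ++ [Step.stay]).take k) = prefixOp H j (steps.take k) ∧
      prefixOpInv H j ((steps ++ [Step.stay]).take k) = prefixOpInv H j (steps.take k) := by
    rcases Nat.lt_or_ge steps.length k with hlt | hge
    · rw [List.take_of_length_le (l := steps ++ [Step.stay]) (by simpa using hlt),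
        List.take_of_length_le hlt.le, prefixOp_stay, prefixOpInv_stay]
      exact ⟨rfl, rfl⟩
    · rw [List.take_append_of_le_length hge]
      exact ⟨rfl, rfl⟩
  simp only [Params.list, take_eq.1] at n1
  simp only [Params.list, take_eq.2] at n2
  have hle : K₀ / ((N : ℝ) + 1) ^ 2 ≤ max (B * (B ^ p₀.len + K₀)) K₀ / ((N : ℝ) + 1) ^ 2 :=
    div_le_div_of_nonneg_right (le_max_right _ _) (by positivity)
  exact ⟨n1.trans hle, n2.trans hle⟩

end

end Vale.Agent.P225.Sched
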