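import Vale.Agent.P225.Sched.Potential
import Vale.Agent.P225.Sched.FlowNear

/-!
P225: one degree of the shape potential as an operator: diagonal in the weights up to the left
squashes, whose first order effect is a multiple of `bumpOp`.
-/

namespace Vale.Agent.P225.Sched

open scoped RealInnerProductSpace

noncomputable section

variable (H : Harm) (sh : Shape)

/-- Multiplication by a function of the weight. -/
def diagW (j : ℕ) (f : ℕ → ℝ) : Op j j :=
  ∑ i, f (H.wt j i) • (innerSL ℝ (EuclideanSpace.single i (1 : ℝ))).smulRight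
    (EuclideanSpace.single i (1 : ℝ))

variable {H sh} {j : ℕ}

@[simp]
theorem diagW_apply (f : ℕ → ℝ) (x : V j) (i : Fin ((j + 1) ^ 2)) :
    diagW H j f x i = f (H.wt j i) * x i := by
  rw [diagW]
  simp [Pi.single_apply, EuclideanSpace.inner_single_left]

theorem diagW_mul (f g : ℕ → ℝ) : diagW H j f * diagW H j g = diagW H j (fun m => f m * g m) := by
  ext x i
  simp [mul_assoc]

theorem diagW_one : diagW H j (fun _ => 1) = 1 := by
  ext x i
  simp

theorem diagW_add (f g : ℕ → ℝ) : diagW H j f + diagW H j g = diagW H j (fun m => f m + g m) := by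
  ext x i
  simp [add_mul]

theorem diagW_sub (f g : ℕ → ℝ) : diagW H j f - diagW H j g = diagW H j (fun m => f m - g m) := by
  ext x i
  simp [sub_mul]

theorem diagW_smul (c : ℝ) (f : ℕ → ℝ) : c • diagW H j f = diagW H j (fun m => c * f m) := by
  ext x i
  simp [mul_assoc]

theorem norm_diagW_le {f : ℕ → ℝ} {B : ℝ} (hB : 0 ≤ B) (hf : ∀ m ≤ j, |f m| ≤ B) :
    ‖diagW H j f‖ ≤ B := by
  refine ContinuousLinearMap.opNorm_le_bound _ hB fun x => ?_
  rw [EuclideanSpace.norm_eq, EuclideanSpace.norm_eq, ← Real.sqrt_sq hB, ← Real.sqrt_mul (sq_nonneg B),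
    Finset.mul_sum]
  refine Real.sqrt_le_sqrt (Finset.sum_le_sum fun i _ => ?_)
  rw [diagW_apply, norm_mul, mul_pow, Real.norm_eq_abs]
  exact mul_le_mul_of_nonneg_right (pow_le_pow_left₀ (abs_nonneg _) (hf _ (H.wt_le j i)) 2)
    (sq_nonneg _)

theorem hasDerivAt_diagW {f : ℕ → ℝ → ℝ} {f' : ℕ → ℝ} {t : ℝ}
    (hf : ∀ m ≤ j, HasDerivAt (f m) (f' m) t) :
    HasDerivAt (fun s => diagW H j fun m => f m s) (diagW H j f') t := by
  unfold diagW
  refine HasDerivAt.fun_sum fun i _ => ?_
  exact HasDerivAt.smul_const (hf _ (H.wt_le j i))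
    ((innerSL ℝ (EuclideanSpace.single i (1 : ℝ))).smulRight (EuclideanSpace.single i (1 : ℝ)) :
      Op j j)

theorem diagW_symm (f : ℕ → ℝ) (x y : V j) : ⟪diagW H j f x, y⟫ = ⟪x, diagW H j f y⟫ := by
  simp only [PiLp.inner_apply, diagW_apply, RCLike.inner_apply, conj_trivial]
  exact Finset.sum_congr rfl fun i _ => by ring

variable (H j) in
/-- The square of the first right field. -/
def sqR : Op j j := (H.ER j 0).comp (H.ER j 0)

theorem sqR_eq : sqR H j = diagW H j (fun m => -((m : ℝ) ^ 2)) := by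
  refine ContinuousLinearMap.coe_injective ((EuclideanSpace.basisFun _ ℝ).toBasis.ext fun i => ?_)
  simp only [OrthonormalBasis.coe_toBasis, EuclideanSpace.basisFun_apply, ContinuousLinearMap.coe_coe,
    sqR, ContinuousLinearMap.comp_apply, H.wt_eigen]
  ext k
  rcases eq_or_ne k i with rfl | h
  · simp
  · simp [h]

/-- An operator commuting with `sqR` commutes with every function of the weight. -/
theorem diagW_comm {A : Op j j} (hA : A * sqR H j = sqR H j * A) (f : ℕ → ℝ) :
    A * diagW H j f = diagW H j f * A := by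
  have key : ∀ i k, H.wt j k ≠ H.wt j i → A (EuclideanSpace.single i 1) k = 0 := fun i k hne => by
    have h := congrArg (fun T : Op j j => T (EuclideanSpace.single i 1) k) hA
    have h2 : sqR H j (EuclideanSpace.single i 1) =
        (-((H.wt j i : ℝ) ^ 2)) • EuclideanSpace.single i 1 := H.wt_eigen j i
    have h3 : sqR H j (A (EuclideanSpace.single i 1)) k =
        -((H.wt j k : ℝ) ^ 2) * A (EuclideanSpace.single i 1) k := by
      rw [sqR_eq, diagW_apply]
    simp only [ContinuousLinearMap.mul_def, ContinuousLinearMap.comp_apply, h2, map_smul,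
      PiLp.smul_apply, smul_eq_mul, h3] at h
    by_contra hn
    have h4 : (H.wt j k : ℝ) ^ 2 = (H.wt j i : ℝ) ^ 2 := by
      have := mul_right_cancel₀ hn h
      linarith
    exact hne (by exact_mod_cast (pow_left_inj₀ (Nat.cast_nonneg _) (Nat.cast_nonneg _)
      two_ne_zero).1 h4)
  refine ContinuousLinearMap.coe_injective ((EuclideanSpace.basisFun _ ℝ).toBasis.ext fun i => ?_)
  simp only [OrthonormalBasis.coe_toBasis, EuclideanSpace.basisFun_apply, ContinuousLinearMap.coe_coe,
    ContinuousLinearMap.mul_def, ContinuousLinearMap.comp_apply]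
  have hd : diagW H j f (EuclideanSpace.single i 1) = f (H.wt j i) • EuclideanSpace.single i 1 := by
    ext k
    rcases eq_or_ne k i with rfl | h
    · simp
    · simp [h]
  rw [hd, map_smul]
  ext k
  rw [diagW_apply, PiLp.smul_apply, smul_eq_mul]
  rcases eq_or_ne (H.wt j k) (H.wt j i) with h | h
  · rw [h]
  · rw [key i k h, mul_zero, mul_zero]

variable (H j) in
/-- The square of the left field along an axis. -/
def sqAxis (a : Fin 6) : Op j j := (Shape.elAxis H j a).comp (Shape.elAxis H j a)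

variable (H j) in
/-- The first order effect of a left squash. -/
def bumpOp (a : Fin 6) : Op j j := (2 * ((j : ℝ) * (j + 2))) • 1 + (6 : ℝ) • sqAxis H j a

theorem sqAxis_comm (a : Fin 6) : sqAxis H j a * sqR H j = sqR H j * sqAxis H j a := by
  have h : ∀ v, Shape.elAxis H j a (H.ER j 0 v) = H.ER j 0 (Shape.elAxis H j a v) := fun v => by
    simp [Shape.elAxis, H.comm]
  refine ContinuousLinearMap.ext fun v => ?_
  simp [sqAxis, sqR, h]

theorem elAxis_skew (a : Fin 6) (u v : V j) :
    ⟪Shape.elAxis H j a u, v⟫ = -⟪u, Shape.elAxis H j a v⟫ := by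
  simp only [Shape.elAxis, sum_apply, smul_apply, sum_inner, inner_sum, real_inner_smul_left,
    inner_smul_right, H.skew_left, ← Finset.sum_neg_distrib, mul_neg]

theorem form_sqAxis (a : Fin 6) (x : V j) :
    ⟪x, sqAxis H j a x⟫ = -‖Shape.elAxis H j a x‖ ^ 2 := by
  rw [sqAxis, ContinuousLinearMap.comp_apply, ← real_inner_self_eq_norm_sq, elAxis_skew, neg_neg]

theorem sqAxis_symm (a : Fin 6) (x y : V j) : ⟪sqAxis H j a x, y⟫ = ⟪x, sqAxis H j a y⟫ := by
  simp only [sqAxis, ContinuousLinearMap.comp_apply, elAxis_skew, neg_neg]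

theorem norm_sqAxis_le (a : Fin 6) :
    ‖sqAxis H j a‖ ≤ (j : ℝ) * (j + 2) ∧
      ‖((j : ℝ) * (j + 2)) • (1 : Op j j) + sqAxis H j a‖ ≤ (j : ℝ) * (j + 2) := by
  constructor <;> refine norm_le_of_form _ ?_ (by positivity) fun x => ?_
  · exact sqAxis_symm a
  · rw [form_sqAxis, abs_neg, abs_of_nonneg (sq_nonneg _)]
    exact norm_elAxis_sq_le H j a x
  · intro x y
    simp [inner_add_left, inner_add_right, inner_smul_left, inner_smul_right, sqAxis_symm a]
  · simp only [add_apply, smul_apply, ContinuousLinearMap.one_def, ContinuousLinearMap.id_apply,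
      inner_add_right, inner_smul_right, form_sqAxis, real_inner_self_eq_norm_sq]
    rw [abs_le]
    constructor <;> nlinarith [norm_elAxis_sq_le H j a x, sq_nonneg ‖Shape.elAxis H j a x‖]

theorem norm_bumpOp_le (a : Fin 6) : ‖bumpOp H j a‖ ≤ 6 * ((j : ℝ) * (j + 2)) := by
  have e : bumpOp H j a = (2 : ℝ) • (((j : ℝ) * (j + 2)) • (1 : Op j j) + sqAxis H j a) +
      (4 : ℝ) • sqAxis H j a := by rw [bumpOp]; module
  obtain ⟨h1, h2⟩ := norm_sqAxis_le (H := H) (j := j) a
  rw [e]
  refine (norm_add_le _ _).trans ?_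
  simp only [norm_smul, Real.norm_ofNat]
  linarith

variable (H sh j) in
/-- The left squash part of the potential. -/
def devOp (t : ℝ) : Op j j :=
  Real.exp (2 * sh.χ t) • ∑ a,
    ((Real.exp (2 * sh.γ a t) - 1) • (((j : ℝ) * (j + 2)) • (1 : Op j j) + sqAxis H j a) +
      (Real.exp (-4 * sh.γ a t) - 1) • (-sqAxis H j a))

/-- The potential is diagonal up to `devOp`. -/
theorem lam_eq (t : ℝ) :
    sh.lam H j t = diagW H j (fun m => lamW sh j m t) + devOp H sh j t := by
  have e : diagW H j (fun m => lamW sh j m t) = Real.exp (2 * sh.χ t) •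
      ((((j : ℝ) * (j + 2)) • (1 : Op j j)) +
        (Real.exp (2 * sh.β t) - 1) • (((j : ℝ) * (j + 2)) • (1 : Op j j) + sqR H j) +
        (Real.exp (-4 * sh.β t) - 1) • (-sqR H j)) := by
    rw [sqR_eq]
    ext x i
    simp [lamW]
    ring
  rw [e, devOp]
  ext x i
  simp [Shape.lam, sqR, sqAxis]

theorem lam_comm (t : ℝ) : sh.lam H j t * sqR H j = sqR H j * sh.lam H j t := by
  have h1 : ∀ a v, sqAxis H j a (sqR H j v) = sqR H j (sqAxis H j a v) := fun a v => by
    simpa using congrArg (fun T : Op j j => T v) (sqAxis_comm (H := H) (j := j) a)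
  have h2 : ∀ v, diagW H j (fun m => lamW sh j m t) (sqR H j v) =
      sqR H j (diagW H j (fun m => lamW sh j m t) v) := fun v => by
    rw [sqR_eq]
    ext i
    simp only [diagW_apply]
    ring
  rw [lam_eq]
  refine ContinuousLinearMap.ext fun v => ?_
  simp only [devOp, ContinuousLinearMap.mul_def, ContinuousLinearMap.comp_apply, add_apply, smul_apply,
    sum_apply, neg_apply, ContinuousLinearMap.one_def, ContinuousLinearMap.id_apply, h1, h2,
    map_add, map_smul, map_sum, map_neg]

theorem norm_devOp_le (t : ℝ) : ‖devOp H sh j t‖ ≤ lamDev sh j t := by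
  rw [devOp, lamDev, norm_smul, Real.norm_eq_abs, Real.abs_exp, mul_assoc]
  refine mul_le_mul_of_nonneg_left ?_ (Real.exp_pos _).le
  rw [Finset.mul_sum]
  refine (norm_sum_le _ _).trans (Finset.sum_le_sum fun a _ => ?_)
  obtain ⟨h1, h2⟩ := norm_sqAxis_le (H := H) (j := j) a
  refine (norm_add_le _ _).trans ?_
  rw [norm_smul, norm_smul, norm_neg, Real.norm_eq_abs, Real.norm_eq_abs]
  have := mul_le_mul_of_nonneg_left h2 (abs_nonneg (Real.exp (2 * sh.γ a t) - 1))
  have := mul_le_mul_of_nonneg_left h1 (abs_nonneg (Real.exp (-4 * sh.γ a t) - 1))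
  linarith

/-- The first order effect of one squash, at the radius `exp (-χ∞)`. -/
theorem norm_devOp_sub_le {a : Fin 6} {t χ₀ : ℝ} (hne : ∀ b, b ≠ a → sh.γ b t = 0)
    (hγ : |sh.γ a t| ≤ 1 / 4) :
    ‖devOp H sh j t - (Real.exp (2 * χ₀) * sh.γ a t) • bumpOp H j a‖ ≤
      (j : ℝ) * (j + 2) * (Real.exp (2 * sh.χ t) * (20 * sh.γ a t ^ 2) +
        6 * |Real.exp (2 * sh.χ t) - Real.exp (2 * χ₀)| * |sh.γ a t|) := by
  set g := sh.γ a t
  set J := (j : ℝ) * (j + 2)
  set A := sqAxis H j a
  have e1 := Real.abs_exp_sub_one_sub_id_le (x := 2 * g) (by rw [abs_mul]; norm_num; linarith)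
  have e2 := Real.abs_exp_sub_one_sub_id_le (x := -4 * g) (by rw [abs_mul]; norm_num; linarith)
  obtain ⟨h1, h2⟩ := norm_sqAxis_le (H := H) (j := j) a
  have e : devOp H sh j t - (Real.exp (2 * χ₀) * g) • bumpOp H j a =
      Real.exp (2 * sh.χ t) • ((Real.exp (2 * g) - 1 - 2 * g) • (J • (1 : Op j j) + A) +
          (Real.exp (-4 * g) - 1 - -4 * g) • (-A)) +
        ((Real.exp (2 * sh.χ t) - Real.exp (2 * χ₀)) * g) • bumpOp H j a := by
    rw [devOp, Finset.sum_eq_single a (fun b _ hb => by ext v i; simp [hne b hb]) (by simp), bumpOp]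
    module
  rw [e]
  refine (norm_add_le _ _).trans ?_
  rw [mul_add]
  refine add_le_add ?_ ?_
  · rw [norm_smul, Real.norm_eq_abs, Real.abs_exp, mul_left_comm]
    refine mul_le_mul_of_nonneg_left ((norm_add_le _ _).trans ?_) (Real.exp_pos _).le
    rw [norm_smul, norm_smul, norm_neg, Real.norm_eq_abs, Real.norm_eq_abs]
    have p1 := mul_le_mul e1 h2 (norm_nonneg _) (sq_nonneg _)
    have p2 := mul_le_mul e2 h1 (norm_nonneg _) (sq_nonneg _)
    linarith
  · rw [norm_smul, Real.norm_eq_abs, abs_mul]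
    refine (mul_le_mul_of_nonneg_left (norm_bumpOp_le a) (by positivity)).trans (le_of_eq ?_)
    ring

end

end Vale.Agent.P225.Sched
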