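import Vale.Agent.P225.Sched.Compare.Defs
import Vale.Agent.P225.ODE.Regular

/-!
P225: the excess `P - diagW q` of the regular exponent over the scalar ones, and the flow equation
of `gam`.
-/

namespace Vale.Agent.P225.Sched

open Set
open scoped RealInnerProductSpace

noncomputable section

variable (H : Harm) {sh : Shape} {j : ℕ} {q : ℕ → ℝ → ℝ} {c : ODE.Coeff (V j)}

/-- The excess of the exponent over the scalar ones. -/
def excess (c : ODE.Coeff (V j)) (q : ℕ → ℝ → ℝ) (t : ℝ) : Op j j :=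
  c.P t - diagW H j fun m => q m t

variable {H}

theorem op_apply {A B : Op j j} (h : A = B) (x : V j) : A x = B x := by rw [h]

theorem Phi_sqR (hc : IsShapeCoeff H sh j c) (t : ℝ) :
    c.Phi t * sqR H j = sqR H j * c.Phi t := by
  set R := sqR H j
  have key : (fun r => (c.Phi r * R, c.dPhi r * R)) = fun r => (R * c.Phi r, R * c.dPhi r) := by
    refine ODE.linear_unique (A := c.field) c.cont_field (fun r => ?_) (fun r => ?_) (a := 0) ?_
    · refine (((c.hasDerivAt_Phi₀ r).mul_const R).prodMk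
        ((c.hasDerivAt_dPhi r).mul_const R)).congr_deriv ?_
      rw [c.field_apply]
      refine Prod.ext rfl (ContinuousLinearMap.ext fun x => ?_)
      simp [ContinuousLinearMap.mul_def]
    · refine (((c.hasDerivAt_Phi₀ r).const_mul R).prodMk
        ((c.hasDerivAt_dPhi r).const_mul R)).congr_deriv ?_
      rw [c.field_apply]
      refine Prod.ext rfl (ContinuousLinearMap.ext fun x => ?_)
      have h := op_apply (lam_comm (H := H) (sh := sh) (j := j) r) (c.Phi r x)
      rw [← hc.lam] at h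
      simp only [ContinuousLinearMap.mul_def, ContinuousLinearMap.comp_apply] at h
      simp [ContinuousLinearMap.mul_def, h, R]
    · rw [c.Phi_start le_rfl, c.dPhi_start le_rfl]
      refine Prod.ext ?_ ?_ <;> ext x <;> simp [ContinuousLinearMap.mul_def]
  exact congrArg Prod.fst (congrFun key t)

theorem dPhi_sqR (hc : IsShapeCoeff H sh j c) (t : ℝ) :
    c.dPhi t * sqR H j = sqR H j * c.dPhi t := by
  have h1 := (c.hasDerivAt_Phi₀ t).mul_const (sqR H j)
  have h2 := (c.hasDerivAt_Phi₀ t).const_mul (sqR H j)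
  have e : (fun r => c.Phi r * sqR H j) = fun r => sqR H j * c.Phi r := funext (Phi_sqR hc)
  rw [e] at h1
  exact h1.unique h2

theorem Psi_sqR (hc : IsShapeCoeff H sh j c) (t : ℝ) :
    c.Psi t * sqR H j = sqR H j * c.Psi t := by
  calc c.Psi t * sqR H j = c.Psi t * (sqR H j * c.Phi t) * c.Psi t := by
        rw [mul_assoc, mul_assoc, c.Phi_mul_Psi, mul_one]
    _ = c.Psi t * (c.Phi t * sqR H j) * c.Psi t := by rw [Phi_sqR hc]
    _ = sqR H j * c.Psi t := by rw [← mul_assoc, c.Psi_mul_Phi, one_mul]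

theorem P_sqR (hc : IsShapeCoeff H sh j c) (t : ℝ) : c.P t * sqR H j = sqR H j * c.P t := by
  rw [ODE.Coeff.P, mul_assoc, Psi_sqR hc, ← mul_assoc, dPhi_sqR hc, mul_assoc]

theorem excess_diagW (hc : IsShapeCoeff H sh j c) (f : ℕ → ℝ) (t : ℝ) :
    excess H c q t * diagW H j f = diagW H j f * excess H c q t := by
  rw [excess, sub_mul, mul_sub, diagW_comm (P_sqR hc t) f, diagW_mul, diagW_mul]
  simp only [mul_comm]

theorem hasDerivAt_excess (hq : IsBlockRate sh j q) (hc : IsShapeCoeff H sh j c) (t : ℝ) :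
    HasDerivAt (excess H c q)
      (devOp H sh j t - (2 + sh.drift t) • excess H c q t - c.P t * excess H c q t -
        excess H c q t * diagW H j (fun m => q m t)) t := by
  have h1 := c.hasDerivAt_P t
  have h2 := hasDerivAt_diagW (H := H) (f := q) fun m hm => hq.ric m hm t
  refine (h1.sub h2).congr_deriv ?_
  rw [hc.lam, hc.drift, lam_eq]
  refine ContinuousLinearMap.ext fun x => ?_
  ext i
  simp [excess, ContinuousLinearMap.mul_def]
  ring

theorem excess_start (hq : IsBlockRate sh j q) (hc : IsShapeCoeff H sh j c) {t : ℝ} (ht : t ≤ 0) :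
    excess H c q t = 0 := by
  rw [excess, c.P_start ht, hc.exponent]
  ext x i
  simp [hq.start _ (H.wt_le j i) t ht]

/-- The excess is bounded by any supersolution `f' + 3f/2 ≥ ‖devOp‖` with `f' ≤ f`. -/
theorem norm_excess_le (hq : IsBlockRate sh j q) (hc : IsShapeCoeff H sh j c) {f f' : ℝ → ℝ}
    {a b : ℝ} (hf : ∀ t ∈ Icc a b, HasDerivAt f (f' t) t) (hf0 : ∀ t ∈ Icc a b, 0 ≤ f t)
    (hf' : ∀ t ∈ Icc a b, f' t ≤ f t)
    (hdev : ∀ t ∈ Icc a b, ‖devOp H sh j t‖ ≤ f' t + 3 / 2 * f t)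
    (ha : ‖excess H c q a‖ ≤ f a) {t : ℝ} (ht : t ∈ Icc a b) : ‖excess H c q t‖ ≤ f t := by
  refine ContinuousLinearMap.opNorm_le_bound _ (hf0 t ht) fun x => ?_
  set v := fun r => excess H c q r x
  have hd : ∀ r ∈ Icc a b, HasDerivAt (fun r => (f r * ‖x‖) ^ 2 - ‖v r‖ ^ 2)
      (2 * (f r * ‖x‖) * (f' r * ‖x‖) - 2 * ⟪v r,
        devOp H sh j r x - (2 + sh.drift r) • v r - c.P r (v r) -
          diagW H j (fun m => q m r) (v r)⟫) r := by
    intro r hr
    have hv : HasDerivAt v (devOp H sh j r x - (2 + sh.drift r) • v r - c.P r (v r) -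
        diagW H j (fun m => q m r) (v r)) r := by
      have h := (hasDerivAt_excess hq hc r).clm_apply (hasDerivAt_const r x)
      have hcomm := op_apply (excess_diagW (q := q) hc (fun m => q m r) r) x
      simp only [ContinuousLinearMap.mul_def, ContinuousLinearMap.comp_apply] at hcomm
      refine h.congr_deriv ?_
      simp [ContinuousLinearMap.mul_def, v, hcomm]
    refine ((((hf r hr).mul_const ‖x‖).pow 2).sub hv.norm_sq).congr_deriv ?_
    simp [Nat.cast_ofNat]
  have h0 : 0 ≤ (f t * ‖x‖) ^ 2 - ‖v t‖ ^ 2 := by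
    refine Barrier.nonneg_of_deriv (fun r hr => (hd r hr).continuousAt.continuousWithinAt)
      (fun r hr => (hd r (Ico_subset_Icc_self hr)).hasDerivWithinAt) ?_ (fun r hr hneg => ?_) ht
    · have : ‖v a‖ ≤ f a * ‖x‖ := (ContinuousLinearMap.le_opNorm _ _).trans (by gcongr)
      simp only [sub_nonneg]
      exact pow_le_pow_left₀ (norm_nonneg _) this 2
    have hr' := Ico_subset_Icc_self hr
    have hlt : f r * ‖x‖ < ‖v r‖ := by
      refine lt_of_pow_lt_pow_left₀ 2 (norm_nonneg _) ?_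
      linarith
    have hd1 : ⟪v r, devOp H sh j r x⟫ ≤ ‖v r‖ * ((f' r + 3 / 2 * f r) * ‖x‖) :=
      (real_inner_le_norm _ _).trans (mul_le_mul_of_nonneg_left
        ((ContinuousLinearMap.le_opNorm _ _).trans (by gcongr; exact hdev r hr')) (norm_nonneg _))
    have hd2 : (2 + sh.drift r) * ‖v r‖ ^ 2 ≥ 3 / 2 * ‖v r‖ ^ 2 := by
      have := (abs_le.1 (c.abs_s r)).1
      rw [hc.drift] at this
      nlinarith [sq_nonneg ‖v r‖]
    have hd3 : 0 ≤ ⟪v r, c.P r (v r)⟫ := c.P_nonneg r _
    have hd4 : 0 ≤ ⟪v r, diagW H j (fun m => q m r) (v r)⟫ := by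
      simp only [PiLp.inner_apply, diagW_apply, RCLike.inner_apply, conj_trivial]
      refine Finset.sum_nonneg fun i _ => ?_
      nlinarith [mul_nonneg (hq.nonneg _ (H.wt_le j i) r) (mul_self_nonneg ((v r) i))]
    simp only [inner_sub_right, inner_smul_right, real_inner_self_eq_norm_sq]
    have hx := norm_nonneg x
    have p1 := mul_nonneg (sub_nonneg.2 hlt.le) (norm_nonneg (v r))
    have p2 : 0 ≤ (‖v r‖ - f r * ‖x‖) * (3 * ‖v r‖ - 2 * (f' r * ‖x‖)) := by
      refine mul_nonneg (sub_nonneg.2 hlt.le) ?_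
      linarith [mul_le_mul_of_nonneg_right (hf' r hr') hx, mul_nonneg (hf0 r hr') hx, norm_nonneg (v r)]
    nlinarith
  exact (pow_le_pow_iff_left₀ (norm_nonneg _) (mul_nonneg (hf0 t ht) (norm_nonneg x))
    two_ne_zero).1 (by linarith)

theorem scalarFlow_mul_inv (t : ℝ) :
    scalarFlow H q j t * scalarFlowInv H q j t = 1 ∧
      scalarFlowInv H q j t * scalarFlow H q j t = 1 := by
  rw [scalarFlow, scalarFlowInv, diagW_mul, diagW_mul]
  simp only [← Real.exp_add, add_neg_cancel, neg_add_cancel, Real.exp_zero, diagW_one, and_self]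

theorem gam_mul_gamInv (t : ℝ) : gam H c q t * gamInv H c q t = 1 := by
  rw [gam, gamInv, mul_assoc, ← mul_assoc (scalarFlowInv H q j t), (scalarFlow_mul_inv t).2,
    one_mul, c.Phi_mul_Psi]

theorem gamInv_mul_gam (t : ℝ) : gamInv H c q t * gam H c q t = 1 := by
  rw [gam, gamInv, mul_assoc, ← mul_assoc (c.Psi t), c.Psi_mul_Phi, one_mul,
    (scalarFlow_mul_inv t).1]

theorem hasDerivAt_gam (hq : IsBlockRate sh j q) (hc : IsShapeCoeff H sh j c) (t : ℝ) :
    HasDerivAt (gam H c q) (excess H c q t * gam H c q t) t := by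
  have hi : ∀ m ≤ j, HasDerivAt (fun r => Real.exp (-∫ u in (0 : ℝ)..r, q m u))
      (Real.exp (-∫ u in (0 : ℝ)..t, q m u) * -q m t) t := fun m hm => by
    have hqc := (hq.ric m hm).continuous
    exact ((hqc.integral_hasStrictDerivAt 0 t).hasDerivAt.neg).exp
  refine ((c.hasDerivAt_Phi t).mul (hasDerivAt_diagW (H := H) hi)).congr_deriv ?_
  rw [excess, gam, scalarFlowInv, sub_mul, ← mul_assoc (diagW H j _) (c.Phi t),
    ← diagW_comm (Phi_sqR hc t) (fun m => q m t), mul_assoc (c.Phi t), diagW_mul]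
  rw [show (fun m => Real.exp (-∫ u in (0 : ℝ)..t, q m u) * -q m t) =
    fun m => (-1) * (q m t * Real.exp (-∫ u in (0 : ℝ)..t, q m u)) from funext fun m => by ring,
    ← diagW_smul]
  ext x i
  simp [ContinuousLinearMap.mul_def]
  ring

theorem hasDerivAt_gamInv (hq : IsBlockRate sh j q) (hc : IsShapeCoeff H sh j c) (t : ℝ) :
    HasDerivAt (gamInv H c q) (-(gamInv H c q t * excess H c q t)) t := by
  have hi : ∀ m ≤ j, HasDerivAt (fun r => Real.exp (∫ u in (0 : ℝ)..r, q m u))
      (Real.exp (∫ u in (0 : ℝ)..t, q m u) * q m t) t := fun m hm => by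
    have hqc := (hq.ric m hm).continuous
    exact (hqc.integral_hasStrictDerivAt 0 t).hasDerivAt.exp
  refine ((hasDerivAt_diagW (H := H) hi).mul (c.hasDerivAt_Psi t)).congr_deriv ?_
  rw [excess, gamInv, scalarFlow, mul_sub, mul_assoc _ (c.Psi t) (diagW H j _),
    diagW_comm (Psi_sqR hc t) (fun m => q m t), ← mul_assoc (diagW H j _) (diagW H j _) (c.Psi t),
    diagW_mul]
  ext x i
  simp [ContinuousLinearMap.mul_def]
  ring

end

end Vale.Agent.P225.Sched
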