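import Vale.Agent.P225.Sched.Compare.Flow
import Vale.Agent.P225.Sched.ExpoR

/-!
P225: the effect of one step of the schedule on `gam`.
-/

namespace Vale.Agent.P225.Sched

open Set MeasureTheory
open scoped RealInnerProductSpace

noncomputable section

section Flows

variable {H : Harm} {sh : Shape} {j : ℕ} {q : ℕ → ℝ → ℝ} {c : ODE.Coeff (V j)}

/-- The transfer of `gam` is close to one, in both directions, when the excess is small in `L¹`. -/
theorem norm_transfer_sub_one_le (hq : IsBlockRate sh j q) (hc : IsShapeCoeff H sh j c)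
    {F f : ℝ → ℝ} {a t : ℝ} (hat : a ≤ t) (hF : ∀ x, HasDerivAt F (f x) x)
    (hX : ∀ x ∈ Icc a t, ‖excess H c q x‖ ≤ f x) :
    ‖gam H c q t * gamInv H c q a - 1‖ ≤ Real.exp (F t - F a) - 1 ∧
      ‖gam H c q a * gamInv H c q t - 1‖ ≤ Real.exp (F t - F a) - 1 := by
  constructor
  · refine norm_flow_sub_one_le (L := fun x => F x - F a) (X := excess H c q)
      (V := fun x => gam H c q x * gamInv H c q a) hat (fun x => (hF x).sub_const _) (sub_self _) hX
      (gam_mul_gamInv a) fun x _ => ((hasDerivAt_gam hq hc x).mul_const _).congr_deriv ?_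
    exact mul_assoc _ _ _
  · have h := norm_flow_sub_one_le (r := (0 : ℝ)) (t := t - a) (L := fun r => F t - F (t - r))
      (L' := fun r => f (t - r)) (X := fun r => -excess H c q (t - r))
      (V := fun r => gam H c q (t - r) * gamInv H c q t) (by linarith) (fun r => ?_) (by simp)
      (fun r hr => ?_) (by rw [sub_zero]; exact gam_mul_gamInv t) (fun r hr => ?_)
    · simpa using h
    · have := (hF (t - r)).scomp r ((hasDerivAt_id' r).const_sub t)
      simpa using this.const_sub (F t)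
    · rw [norm_neg]
      exact hX _ ⟨by linarith [hr.2], by linarith [hr.1]⟩
    · have := ((hasDerivAt_gam hq hc (t - r)).scomp r ((hasDerivAt_id' r).const_sub t)).mul_const
        (gamInv H c q t)
      refine this.congr_deriv ?_
      refine ContinuousLinearMap.ext fun x => ?_
      simp [ContinuousLinearMap.mul_def]

end Flows

theorem exp_sub_one_le {x B : ℝ} (hx : 0 ≤ x) (hB : x ≤ B) :
    Real.exp x - 1 ≤ x * Real.exp B := by
  have h := mul_le_mul_of_nonneg_right (Real.add_one_le_exp (-x)) (Real.exp_pos x).le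
  rw [← Real.exp_add, neg_add_cancel, Real.exp_zero] at h
  nlinarith [mul_le_mul_of_nonneg_left (Real.exp_le_exp.2 hB) hx]

theorem root_lip {l₁ l₂ : ℝ} (h₁ : 0 ≤ l₁) (h₂ : 0 ≤ l₂) :
    |Barrier.root 0 l₁ - Barrier.root 0 l₂| ≤ |l₁ - l₂| / 2 := by
  have e₁ := Barrier.root_eq (s := 0) h₁
  have e₂ := Barrier.root_eq (s := 0) h₂
  have p := add_nonneg (Barrier.root_nonneg (s := 0) h₁) (Barrier.root_nonneg (s := 0) h₂)
  have e : (Barrier.root 0 l₁ - Barrier.root 0 l₂) *
      (Barrier.root 0 l₁ + Barrier.root 0 l₂ + 2) = l₁ - l₂ := by linear_combination e₁ - e₂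
  rw [← e, abs_mul, le_div_iff₀ two_pos]
  refine mul_le_mul_of_nonneg_left ?_ (abs_nonneg _)
  rw [abs_of_nonneg (by linarith)]
  linarith

theorem one_le_rate_den (j : ℕ) : 1 ≤ 2 + 2 * rateInf j := by
  have := Barrier.root_nonneg (s := 0) (lam := 64 / 49 * ((j : ℝ) * (j + 2))) (by positivity)
  unfold rateInf
  linarith

theorem rateInf_bounds (j : ℕ) : 0 ≤ rateInf j ∧ rateInf j ≤ speed j := by
  refine ⟨Barrier.root_nonneg (by positivity),
    (Barrier.root_le_sqrt (by norm_num) (by positivity)).trans ?_⟩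
  refine Real.sqrt_le_iff.2 ⟨by unfold speed; positivity, ?_⟩
  unfold speed
  nlinarith [Nat.cast_nonneg (α := ℝ) j]

namespace Params

variable {p : Params}

/-- Constant of the global bound of the excess. -/
def devA (p : Params) (j : ℕ) : ℝ :=
  16 * ((j : ℝ) * (j + 2)) * p.levelSum * (p.durSum + 3)

theorem devA_nonneg (p : Params) (j : ℕ) : 0 ≤ p.devA j := by
  have := p.one_le_levelSum
  have := p.durSum_nonneg
  unfold devA
  positivity

/-- Constant of the bound of the excess on a step. -/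
def devB (p : Params) (j : ℕ) : ℝ := 255 * p.devA j

/-- Bound of the flow within one step. -/
def flowC (p : Params) (j : ℕ) : ℝ := p.devB j * (p.durSum + 1)

/-- Constant of the approach of the radius to its limit. -/
def chiC (p : Params) : ℝ := 3 * (24576 + 510 * p.C)

theorem size_le_add {m : ℕ} {t : ℝ} (ht : p.time m ≤ t) :
    p.size m ≤ t ∧ p.size m ^ 8 / 255 ≤ t + (p.N0 : ℝ) ^ 8 := by
  constructor
  · refine le_trans ?_ ((p.time_ge m).trans ht)
    simp only [size, Nat.cast_add]
    have : ((m / p.len : ℕ) : ℝ) ≤ m := by exact_mod_cast Nat.div_le_self m p.len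
    linarith
  · refine (p.period_start_ge (m / p.len)).trans ?_
    simp only [start, add_zero, add_le_add_iff_right]
    exact ((p.time_strictMono.monotone (Nat.div_mul_le_self m p.len)).trans ht)

theorem size_rpow {n : ℝ} (hn : 0 ≤ n) : (n ^ 8) ^ (3 / 8 : ℝ) = n ^ 3 := by
  rw [← Real.rpow_natCast n 8, ← Real.rpow_mul hn, ← Real.rpow_natCast n 3]
  norm_num

theorem durCoef_le_durSum (m : ℕ) : (p.step m).durCoef ≤ p.durSum :=
  List.single_le_sum (l := p.list.map Step.durCoef)
    (fun x hx => by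
      obtain ⟨s, _, rfl⟩ := List.mem_map.1 hx
      linarith [one_le_durCoef s])
    _ (List.mem_map.2 ⟨_, p.step_mem m, rfl⟩)

/-- Sum of the left squashes on a step. -/
theorem sum_abs_comp_le {m : ℕ} {t : ℝ} (h1 : p.time m ≤ t) (h2 : t ≤ p.time (m + 1)) :
    ∑ a, |p.comp (some a) t| ≤ p.levelSum / p.size m ^ 3 := by
  have hn := p.size_ge_one m
  have hl := p.one_le_levelSum
  cases hs : (p.step m).axis with
  | none =>
    rw [Finset.sum_eq_zero fun a _ => by
      rw [p.comp_eq_piece (m := m) (by linarith) (by linarith), hs, if_neg (by simp), abs_zero]]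
    positivity
  | some a =>
    rw [Finset.sum_eq_single a (fun b _ hb => by
      rw [p.comp_eq_piece (m := m) (by linarith) (by linarith), hs,
        if_neg (by simp [Ne.symm hb]), abs_zero]) (by simp),
      p.comp_eq_piece (m := m) (by linarith) (by linarith), if_pos hs]
    have hlev := p.abs_level_le m
    unfold piece
    rw [abs_mul, abs_of_nonneg (bump_nonneg _ _ _ _)]
    refine (mul_le_of_le_one_right (abs_nonneg _) (bump_le_one _ _ _ _)).trans ?_
    cases hp : p.step m with
    | micro b z e =>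
      simp only [hp, Step.level] at hlev
      simp only [Step.amp]
      rw [abs_div, abs_of_pos (by positivity : (0 : ℝ) < p.size m ^ 3)]
      gcongr
    | round e => simp [hp, Step.axis] at hs
    | gap e => simp [hp, Step.axis] at hs
    | cross z e => simp [hp, Step.axis] at hs
    | slot => simp [hp, Step.axis] at hs
    | stay => simp [hp, Step.axis] at hs

theorem Ok.norm_devOp_step (h : p.Ok) (H : Harm) (j : ℕ) {m : ℕ} {t : ℝ} (h1 : p.time m ≤ t)
    (h2 : t ≤ p.time (m + 1)) :
    ‖devOp H p.shape j t‖ ≤ p.devA j * (t + (p.N0 : ℝ) ^ 8) ^ (-(3 / 8) : ℝ) := by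
  have hn := p.size_ge_one m
  have hD : (1 : ℝ) ≤ p.durSum + 3 := by linarith [p.durSum_nonneg]
  have hl := p.one_le_levelSum
  have hM : 0 < t + (p.N0 : ℝ) ^ 8 := by
    have : 0 < p.size m ^ 8 / 255 := by positivity
    linarith [(p.size_le_add (m := m) h1).2]
  refine (norm_devOp_le t).trans ((h.lamDev_le_sum j t).trans ?_)
  refine (mul_le_mul_of_nonneg_left (p.sum_abs_comp_le h1 h2) (by positivity)).trans ?_
  rw [devA, mul_assoc (16 * _ * p.levelSum), mul_div_assoc']
  rw [div_eq_mul_inv, mul_assoc]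
  refine le_of_le_of_eq ?_ (mul_assoc _ _ _).symm
  refine mul_le_mul_of_nonneg_left (mul_le_mul_of_nonneg_left ?_ (by linarith)) (by positivity)
  rw [Real.rpow_neg hM.le, ← div_eq_mul_inv, le_div_iff₀ (Real.rpow_pos_of_pos hM _),
    inv_mul_le_iff₀ (by positivity)]
  calc (t + (p.N0 : ℝ) ^ 8) ^ (3 / 8 : ℝ) ≤ ((p.durSum + 3) * p.size m ^ 8) ^ (3 / 8 : ℝ) :=
        Real.rpow_le_rpow hM.le (p.time_add_le h2) (by norm_num)
    _ = (p.durSum + 3) ^ (3 / 8 : ℝ) * p.size m ^ 3 := by
        rw [Real.mul_rpow (by linarith) (by positivity), size_rpow (by linarith)]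
    _ ≤ (p.durSum + 3) * p.size m ^ 3 := by
        gcongr
        simpa using Real.rpow_le_rpow_of_exponent_le hD (show (3 / 8 : ℝ) ≤ 1 by norm_num)
    _ = p.size m ^ 3 * (p.durSum + 3) := mul_comm _ _

variable {H : Harm} {j : ℕ} {q : ℕ → ℝ → ℝ} {c : ODE.Coeff (V j)}

theorem devOp_early {t : ℝ} (ht : t ≤ (p.N0 : ℝ) + 1 / 2) : devOp H p.shape j t = 0 := by
  ext x i
  simp [devOp, Params.shape, p.comp_eq_zero_early ht]

theorem excess_early (hq : IsBlockRate p.shape j q) (hc : IsShapeCoeff H p.shape j c) {t : ℝ}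
    (ht : t ≤ (p.N0 : ℝ)) : excess H c q t = 0 := by
  rcases le_or_gt t 0 with h0 | h0
  · exact excess_start hq hc h0
  · refine norm_le_zero_iff.1 (norm_excess_le hq hc (f := fun _ => 0) (a := 0) (b := t)
      (fun x _ => hasDerivAt_const x 0) (fun _ _ => le_rfl) (fun _ _ => le_rfl) (fun x hx => ?_)
      (by simp [excess_start hq hc le_rfl]) ⟨h0.le, le_rfl⟩)
    rw [p.devOp_early (by linarith [hx.2])]
    simp

theorem Ok.norm_excess_le (h : p.Ok) (hq : IsBlockRate p.shape j q)
    (hc : IsShapeCoeff H p.shape j c) {t : ℝ} (ht : 0 ≤ t) :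
    ‖excess H c q t‖ ≤ p.devA j * (t + (p.N0 : ℝ) ^ 8) ^ (-(3 / 8) : ℝ) := by
  have hA := p.devA_nonneg j
  have hM : (1 : ℝ) ≤ (p.N0 : ℝ) ^ 8 := one_le_pow₀ p.one_le_N0
  refine Sched.norm_excess_le hq hc (a := 0) (b := t)
    (f := fun x => p.devA j * (x + (p.N0 : ℝ) ^ 8) ^ (-(3 / 8) : ℝ))
    (f' := fun x => p.devA j * ((-(3 / 8)) * (x + (p.N0 : ℝ) ^ 8) ^ (-(3 / 8) - 1 : ℝ)))
    (fun x hx => ?_) (fun x hx => ?_) (fun x hx => ?_) (fun x hx => ?_) ?_ ⟨ht, le_rfl⟩
  · simpa using (((hasDerivAt_id' x).add_const ((p.N0 : ℝ) ^ 8)).rpow_const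
      (p := (-(3 / 8) : ℝ)) (Or.inl (by linarith [hx.1]))).const_mul (p.devA j)
  · exact mul_nonneg hA (Real.rpow_nonneg (by linarith [hx.1]) _)
  · have := Real.rpow_nonneg (show (0 : ℝ) ≤ x + (p.N0 : ℝ) ^ 8 by linarith [hx.1]) (-(3 / 8) - 1)
    have := Real.rpow_nonneg (show (0 : ℝ) ≤ x + (p.N0 : ℝ) ^ 8 by linarith [hx.1]) (-(3 / 8))
    nlinarith
  · have hdev : ‖devOp H p.shape j x‖ ≤ p.devA j * (x + (p.N0 : ℝ) ^ 8) ^ (-(3 / 8) : ℝ) := by
      rcases lt_or_ge x (p.N0 : ℝ) with hx0 | hx0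
      · rw [p.devOp_early (by linarith), norm_zero]
        exact mul_nonneg hA (Real.rpow_nonneg (by linarith [hx.1]) _)
      · obtain ⟨m, h1, h2⟩ := p.exists_index hx0
        exact h.norm_devOp_step H j h1 h2.le
    refine hdev.trans ?_
    have hpos : 0 < x + (p.N0 : ℝ) ^ 8 := by linarith [hx.1]
    have := mul_nonneg hA (Real.rpow_nonneg hpos.le (-(3 / 8)))
    have e : (x + (p.N0 : ℝ) ^ 8) ^ (-(3 / 8) - 1 : ℝ) ≤ (x + (p.N0 : ℝ) ^ 8) ^ (-(3 / 8) : ℝ) :=
      Real.rpow_le_rpow_of_exponent_le (by linarith [hx.1]) (by norm_num)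
    nlinarith [mul_le_mul_of_nonneg_left e hA]
  · rw [excess_start hq hc le_rfl, norm_zero]
    exact mul_nonneg hA (Real.rpow_nonneg (by linarith) _)

theorem Ok.norm_excess_step (h : p.Ok) (hq : IsBlockRate p.shape j q)
    (hc : IsShapeCoeff H p.shape j c) {m : ℕ} {t : ℝ} (h1 : p.time m ≤ t) :
    ‖excess H c q t‖ ≤ p.devB j / p.size m ^ 3 := by
  have hn := p.size_ge_one m
  have h0 : 0 ≤ t := by linarith [p.N0_le_time m, p.one_le_N0]
  have hpos : 0 < p.size m ^ 8 / 255 := by positivity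
  refine (h.norm_excess_le hq hc h0).trans ?_
  rw [devB, mul_comm 255, mul_div_assoc]
  refine mul_le_mul_of_nonneg_left ?_ (p.devA_nonneg j)
  refine (Real.rpow_le_rpow_of_nonpos hpos (p.size_le_add h1).2 (by norm_num)).trans ?_
  rw [Real.rpow_neg hpos.le, Real.div_rpow (by positivity) (by norm_num), size_rpow (by linarith),
    inv_div]
  gcongr
  simpa using Real.rpow_le_rpow_of_exponent_le (show (1 : ℝ) ≤ 255 by norm_num)
    (show (3 / 8 : ℝ) ≤ 1 by norm_num)

theorem step_micro_facts {m : ℕ} {a : Fin 6} {z e : ℝ} (hs : p.step m = Step.micro a z e) :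
    p.time (m + 1) - p.time m = (2 + max e 0) * p.size m ^ 3 ∧ 2 + max e 0 ≤ p.durSum ∧
      |z| ≤ p.levelSum := by
  refine ⟨?_, ?_, ?_⟩
  · rw [p.time_succ, add_sub_cancel_left, dur, hs]
    rfl
  · have := p.durCoef_le_durSum m
    rw [hs, Step.durCoef] at this
    linarith
  · simpa [hs, Step.level] using p.abs_level_le m

theorem not_micro_of_axis {s : Step} (h : s.axis = none) (H : Harm) (j : ℕ) :
    stepOp H j s = 1 ∧ stepOpInv H j s = 1 := by
  cases s <;> simp_all [Step.axis, stepOp, stepOpInv]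

theorem Ok.excess_decay (h : p.Ok) (hq : IsBlockRate p.shape j q)
    (hc : IsShapeCoeff H p.shape j c) {m : ℕ} (hax : (p.step m).axis = none) {t : ℝ}
    (h1 : p.time m ≤ t) (h2 : t ≤ p.time (m + 1)) :
    ‖excess H c q t‖ ≤ p.devB j / p.size m ^ 3 * Real.exp (-(t - p.time m)) := by
  have hn := p.size_ge_one m
  have hB : 0 ≤ p.devB j / p.size m ^ 3 :=
    (norm_nonneg _).trans (h.norm_excess_step hq hc (le_refl (p.time m)))
  refine Sched.norm_excess_le hq hc (a := p.time m) (b := p.time (m + 1))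
    (f := fun x => p.devB j / p.size m ^ 3 * Real.exp (-(x - p.time m)))
    (f' := fun x => -(p.devB j / p.size m ^ 3 * Real.exp (-(x - p.time m)))) (fun x _ => ?_)
    (fun x _ => by positivity) (fun x _ => ?_) (fun x hx => ?_) ?_ ⟨h1, h2⟩
  · simpa using ((((hasDerivAt_id' x).sub_const (p.time m)).neg).exp).const_mul
      (p.devB j / p.size m ^ 3)
  · linarith [mul_nonneg hB (Real.exp_pos (-(x - p.time m))).le]
  · have : devOp H p.shape j x = 0 := by
      ext y i
      simp [devOp, Params.shape, p.comp_eq_piece (m := m) (s := x) (by linarith [hx.1])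
        (by linarith [hx.2]), hax]
    rw [this, norm_zero]
    linarith [mul_nonneg hB (Real.exp_pos (-(x - p.time m))).le]
  · simpa using h.norm_excess_step hq hc (le_refl (p.time m))

/-- The transfer within one step is bounded. -/
theorem Ok.norm_transfer_step (h : p.Ok) (hq : IsBlockRate p.shape j q)
    (hc : IsShapeCoeff H p.shape j c) {m : ℕ} {t : ℝ} (h1 : p.time m ≤ t)
    (h2 : t ≤ p.time (m + 1)) :
    ‖gam H c q t * gamInv H c q (p.time m)‖ ≤ Real.exp (p.flowC j) ∧
      ‖gam H c q (p.time m) * gamInv H c q t‖ ≤ Real.exp (p.flowC j) := by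
  set a := p.time m
  set δ := p.devB j / p.size m ^ 3
  have hn := p.size_ge_one m
  have hδ : 0 ≤ δ := (norm_nonneg _).trans (h.norm_excess_step hq hc (le_refl a))
  have hB : 0 ≤ p.devB j := by have := p.devA_nonneg j; unfold devB; positivity
  have hD := p.durSum_nonneg
  have fin : ∀ (A : Op j j) (s : ℝ), ‖A - 1‖ ≤ Real.exp s - 1 → s ≤ p.flowC j →
      ‖A‖ ≤ Real.exp (p.flowC j) := fun A s hA hs => by
    have := norm_add_le (A - 1) 1
    rw [sub_add_cancel, norm_one] at this
    linarith [Real.exp_le_exp.2 hs]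
  cases hax : (p.step m).axis with
  | none =>
    obtain ⟨e1, e2⟩ := norm_transfer_sub_one_le hq hc (a := a) (t := t)
      (F := fun x => -(δ * Real.exp (-(x - a)))) h1
      (fun x => by simpa using ((((hasDerivAt_id' x).sub_const a).neg).exp.const_mul δ).fun_neg)
      (fun x hx => h.excess_decay hq hc hax hx.1 (hx.2.trans h2))
    have hle : -(δ * Real.exp (-(t - a))) - -(δ * Real.exp (-(a - a))) ≤ p.flowC j := by
      simp only [sub_self, neg_zero, Real.exp_zero, mul_one]
      have h3 : δ ≤ p.devB j := div_le_self hB (one_le_pow₀ hn)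
      have h4 := mul_nonneg hδ (Real.exp_pos (-(t - a))).le
      have h5 := mul_nonneg hB hD
      unfold flowC
      linarith
    exact ⟨fin _ _ e1 hle, fin _ _ e2 hle⟩
  | some b =>
    obtain ⟨z, e, hs⟩ : ∃ z e, p.step m = Step.micro b z e := by
      cases hs : p.step m <;> simp_all [Step.axis]
    obtain ⟨hlen, hd, -⟩ := step_micro_facts hs
    obtain ⟨e1, e2⟩ := norm_transfer_sub_one_le hq hc (a := a) (t := t) (F := fun x => δ * x) h1
      (fun x => by simpa using (hasDerivAt_id' x).const_mul δ)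
      (fun x hx => h.norm_excess_step hq hc hx.1)
    have hle : δ * t - δ * a ≤ p.flowC j := by
      rw [← mul_sub]
      refine (mul_le_mul_of_nonneg_left (show t - a ≤ p.durSum * p.size m ^ 3 from ?_) hδ).trans ?_
      · have := mul_le_mul_of_nonneg_right hd (show 0 ≤ p.size m ^ 3 by positivity)
        linarith
      · simp only [δ]
        rw [div_mul_eq_mul_div, ← mul_assoc, mul_div_assoc, div_self (by positivity), mul_one]
        unfold flowC
        linarith
    exact ⟨fin _ _ e1 hle, fin _ _ e2 hle⟩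

theorem Ok.exp_chi_late (h : p.Ok) {m : ℕ} {t : ℝ} (h1 : p.time m ≤ t) :
    |Real.exp (2 * p.chi t) - 64 / 49| ≤ p.chiC / p.size m ^ 4 := by
  have hn := p.size_ge_one m
  obtain ⟨hnt, hMt⟩ := p.size_le_add (m := m) h1
  obtain ⟨h0, hL⟩ := h.chi_bounds t
  have ht1 : 1 ≤ t := hn.trans hnt
  set d := Real.log (8 / 7) - p.chi t
  have hd : d = 4 * p.A * Real.exp (-t / 4) + 2 * p.C * (t + (p.N0 : ℝ) ^ 8) ^ (-(1 / 2) : ℝ) := by
    simp only [d, chi_eq ht1]; ring
  have he : Real.exp (2 * p.chi t) = 64 / 49 * Real.exp (-(2 * d)) := by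
    rw [← exp_two_L, ← Real.exp_add]; congr 1; simp only [d]; ring
  have hdd : |Real.exp (2 * p.chi t) - 64 / 49| ≤ 3 * d := by
    rw [he, abs_le]
    have hd0 : 0 ≤ d := by simp only [d]; linarith
    have h3 := Real.add_one_le_exp (-(2 * d))
    have h4 : Real.exp (-(2 * d)) ≤ 1 := Real.exp_le_one_iff.2 (by linarith)
    constructor <;> linarith
  refine hdd.trans ?_
  rw [hd, chiC, mul_div_assoc, add_div]
  refine mul_le_mul_of_nonneg_left (add_le_add ?_ ?_) (by norm_num)
  · have hx : p.size m / 4 ≤ t / 4 := by linarith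
    have h4 := Real.pow_div_factorial_le_exp (x := p.size m / 4) (by positivity) 4
    have hA := h.A_le
    have hA0 := h.A_pos
    have h5 : Real.exp (-t / 4) ≤ 6144 / p.size m ^ 4 := by
      rw [show -t / 4 = -(t / 4) by ring, Real.exp_neg, ← inv_div (p.size m ^ 4) 6144]
      refine inv_anti₀ (by positivity) (le_trans (le_trans (le_of_eq ?_) h4) (Real.exp_le_exp.2 hx))
      norm_num [Nat.factorial]
      ring
    calc 4 * p.A * Real.exp (-t / 4) ≤ 4 * 1 * (6144 / p.size m ^ 4) := by
          gcongr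
          linarith
      _ = _ := by ring
  · have hC := p.one_le_C
    have hpos : 0 < p.size m ^ 8 / 255 := by positivity
    refine (mul_le_mul_of_nonneg_left
      (Real.rpow_le_rpow_of_nonpos hpos hMt (by norm_num)) (by linarith)).trans ?_
    rw [show (510 : ℝ) * p.C = 2 * p.C * 255 by ring, mul_div_assoc]
    refine mul_le_mul_of_nonneg_left ?_ (by linarith)
    rw [Real.rpow_neg hpos.le, Real.div_rpow (by positivity) (by norm_num), inv_div,
      ← Real.rpow_natCast (p.size m) 8, ← Real.rpow_mul (by linarith),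
      show ((8 : ℕ) : ℝ) * (1 / 2) = ((4 : ℕ) : ℝ) by norm_num, Real.rpow_natCast]
    gcongr
    simpa using Real.rpow_le_rpow_of_exponent_le (show (1 : ℝ) ≤ 255 by norm_num)
      (show (1 / 2 : ℝ) ≤ 1 by norm_num)

end Params

end

end Vale.Agent.P225.Sched
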