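import Vale.Agent.P225.Sched.Compare.Step

/-!
P225: one step of the schedule multiplies `gam` by `stepOp`, up to `O(n^-3)`.
-/

namespace Vale.Agent.P225.Sched

open Set MeasureTheory
open scoped RealInnerProductSpace

noncomputable section

namespace Params

variable {p : Params} {H : Harm} {j : ℕ} {q : ℕ → ℝ → ℝ} {c : ODE.Coeff (V j)}

theorem Ok.rate_scalar_le (h : p.Ok) (hq : IsBlockRate p.shape j q) {m : ℕ} (hm : m ≤ j) {t : ℝ}
    (ht : 0 ≤ t) : q m t ≤ speed j := by
  have hsp : 0 ≤ speed j := by unfold speed; positivity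
  refine (hq.ric m hm).le_super (h := fun _ => speed j) (h' := fun _ => 0) (a := 0) (b := t)
    (fun u _ => hasDerivAt_const u _) (fun u _ => ?_) (fun u _ => ?_) ?_ ⟨ht, le_rfl⟩
  · obtain ⟨hs1, -⟩ := h.drift_bounds u
    have hl := (h.lamW_bounds hm u).2
    have := mul_le_mul_of_nonneg_right hs1 hsp
    unfold speed at this ⊢
    nlinarith [Nat.cast_nonneg (α := ℝ) j]
  · linarith [(h.drift_bounds u).1, hq.nonneg m hm u]
  · rw [hq.start m hm 0 le_rfl]
    unfold speed
    linarith [Nat.cast_nonneg (α := ℝ) j]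

/-- Constant of the deviation of the scalar exponents from the final one on a bump. -/
def rateB (p : Params) (j : ℕ) : ℝ :=
  2 * speed j + (j : ℝ) * (j + 2) * p.chiC * p.durSum + speed j

/-- Constant of the forcing on a bump. -/
def rhoB (p : Params) (j : ℕ) : ℝ :=
  (j : ℝ) * (j + 2) * (40 * p.levelSum ^ 2 + 6 * p.chiC * p.levelSum) * p.durSum +
    p.devB j ^ 2 * p.durSum + p.devB j * (2 * ((j + 1) * p.rateB j) + 1)

/-- Constant of the error of one step. -/
def stepC (p : Params) (j : ℕ) : ℝ :=
  let S := (2 * p.levelSum * (p.durSum + 1)) * (6 * ((j : ℝ) * (j + 2)))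
  let T := Real.exp (2 * S) * (p.devB j + p.rhoB j)
  Real.exp S * (T * Real.exp T + 6 * ((j : ℝ) * (j + 2)) * (2 * p.levelSum)) +
    p.devB j * Real.exp (p.devB j)

theorem chiC_nonneg (p : Params) : 0 ≤ p.chiC := by
  have := p.one_le_C
  unfold chiC
  linarith

theorem integral_piece {m : ℕ} {a : Fin 6} {z e : ℝ} (hs : p.step m = Step.micro a z e) :
    ∫ t in p.time m..p.time (m + 1), p.piece m t = z * bumpMass e := by
  set n := p.size m
  set d := 2 + max e 0
  have hn : 1 ≤ n := p.size_ge_one m
  have hne : p.size m ≠ 0 := by linarith [p.size_ge_one m]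
  have hw : (0 : ℝ) < n ^ 3 := by positivity
  have hpiece : p.piece m = fun t => z / n ^ 3 * bump 0 1 d (t / n ^ 3 - p.time m / n ^ 3) := by
    funext t
    simp only [piece, dur, hs, Step.amp, Step.width, Step.dur]
    congr 1
    simp only [bump, d, n]
    congr 2 <;> field_simp <;> ring
  rw [hpiece, intervalIntegral.integral_const_mul,
    intervalIntegral.integral_comp_div_sub (f := fun u => bump 0 1 d u) hw.ne' (p.time m / n ^ 3),
    smul_eq_mul, sub_self, p.time_succ,
    show (p.time m + p.dur m) / n ^ 3 - p.time m / n ^ 3 = d by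
      simp only [dur, hs, Step.dur, d, n]; field_simp; ring,
    ← mul_assoc, div_mul_cancel₀ _ hw.ne']
  rfl

theorem Ok.integral_rate_dist_le (h : p.Ok) (hq : IsBlockRate p.shape j q) {m : ℕ} (hm : m ≤ j)
    {k : ℕ} {a : Fin 6} {z e : ℝ} (hs : p.step k = Step.micro a z e) :
    ∫ t in p.time k..p.time (k + 1), |q m t - rateInf j| ≤ p.rateB j := by
  set J := (j : ℝ) * (j + 2)
  set r := rateInf j
  obtain ⟨hr0, hr1⟩ := rateInf_bounds j
  obtain ⟨hlen, hd, -⟩ := step_micro_facts hs
  have hn := p.size_ge_one k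
  have hab : p.time k ≤ p.time (k + 1) := (p.time_strictMono (Nat.lt_succ_self k)).le
  have h0 : 0 ≤ p.time k := by linarith [p.N0_le_time k, p.one_le_N0]
  have hcl := continuous_lamW p.shape j m
  have hcs := continuous_drift p.shape
  obtain ⟨h1, -⟩ := (hq.ric m hm).dist_curve (p := fun _ => r) (p' := fun _ => 0) (m := 1)
    (fun t _ => hasDerivAt_const t r) hab one_pos
    (fun t _ => by linarith [(h.drift_bounds t).1, hq.nonneg m hm t]) (by fun_prop)
  rw [div_one] at h1
  refine h1.trans ?_
  have hq0 : |q m (p.time k) - r| ≤ 2 * speed j := by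
    have := hq.nonneg m hm (p.time k)
    have := h.rate_scalar_le hq hm h0
    rw [abs_le]
    constructor <;> linarith
  have hint : ∫ t in p.time k..p.time (k + 1),
      |lamW p.shape j m t - r ^ 2 - (2 + p.shape.drift t) * r - 0| ≤
      J * (p.chiC * p.durSum) + speed j := by
    have hb : ∀ t ∈ Icc (p.time k) (p.time (k + 1)),
        |lamW p.shape j m t - r ^ 2 - (2 + p.shape.drift t) * r - 0| ≤
          J * (p.chiC / p.size k ^ 4) + 3 * speed j * p.rate t := by
      intro t ht
      have hβ : p.comp none t = 0 := by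
        rw [p.comp_eq_piece (m := k) (by linarith [ht.1]) (by linarith [ht.2]), hs]
        simp [Step.axis]
      have er : r ^ 2 + 2 * r = 64 / 49 * J := by
        have := Barrier.root_eq (s := 0) (lam := 64 / 49 * J) (by positivity)
        simpa [r, rateInf, J] using this
      have e : lamW p.shape j m t - r ^ 2 - (2 + p.shape.drift t) * r - 0 =
          J * (Real.exp (2 * p.chi t) - 64 / 49) + 3 * p.rate t * r := by
        rw [p.shape_drift]
        simp only [lamW, Params.shape, hβ]
        simp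
        linear_combination -er
      rw [e]
      refine (abs_add_le _ _).trans (add_le_add ?_ ?_)
      · rw [abs_mul, abs_of_nonneg (by positivity : 0 ≤ J)]
        exact mul_le_mul_of_nonneg_left (h.exp_chi_late ht.1) (by positivity)
      · have := h.rate_nonneg t
        rw [abs_of_nonneg (by positivity)]
        have := mul_le_mul_of_nonneg_right hr1 (h.rate_nonneg t)
        linarith
    have hci : Continuous p.rate := p.contDiff_rate.continuous
    refine (intervalIntegral.integral_mono_on hab
      ((by fun_prop : Continuous fun t => |lamW p.shape j m t - r ^ 2 -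
        (2 + p.shape.drift t) * r - 0|).intervalIntegrable _ _)
      ((continuous_const.add (hci.const_mul (3 * speed j))).intervalIntegrable _ _) hb).trans ?_
    simp only [Pi.add_apply]
    rw [intervalIntegral.integral_add intervalIntegrable_const
      ((hci.const_mul _).intervalIntegrable _ _), intervalIntegral.integral_const,
      intervalIntegral.integral_const_mul,
      intervalIntegral.integral_eq_sub_of_hasDerivAt (fun t _ => p.hasDerivAt_chi t)
        (hci.intervalIntegrable _ _), smul_eq_mul]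
    refine add_le_add ?_ ?_
    · rw [hlen, mul_left_comm]
      refine mul_le_mul_of_nonneg_left ?_ (by positivity)
      rw [mul_div_assoc', div_le_iff₀ (by positivity)]
      have e4 : p.size k ^ 3 ≤ p.size k ^ 4 := pow_le_pow_right₀ hn (by norm_num)
      have := mul_le_mul hd e4 (by positivity) p.durSum_nonneg
      nlinarith [mul_le_mul_of_nonneg_left this p.chiC_nonneg]
    · have h7 := log_87.2
      obtain ⟨c0, -⟩ := h.chi_bounds (p.time k)
      obtain ⟨-, c1⟩ := h.chi_bounds (p.time (k + 1))
      have : 0 ≤ speed j := by unfold speed; positivity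
      calc 3 * speed j * (p.chi (p.time (k + 1)) - p.chi (p.time k)) ≤ 3 * speed j * (1 / 3) := by
            gcongr
            linarith
        _ = speed j := by ring
  rw [rateB, mul_assoc _ p.chiC]
  linarith

/-- The bound of the forcing of a bump at size `n`. -/
def bumpRho (p : Params) (q : ℕ → ℝ → ℝ) (j : ℕ) (n t : ℝ) : ℝ :=
  (j : ℝ) * (j + 2) * (40 * (p.levelSum / n ^ 3) ^ 2 +
      6 * (p.chiC / n ^ 4) * (p.levelSum / n ^ 3)) + (p.devB j / n ^ 3) ^ 2 +
    p.devB j / n ^ 3 *
      (2 * (∑ i ∈ Finset.range (j + 1), |q i t - rateInf j|) + 3 * p.rate t)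

/-- What is left of the excess equation after the first order of a bump. -/
def bumpRest (p : Params) (H : Harm) {j : ℕ} (c : ODE.Coeff (V j)) (q : ℕ → ℝ → ℝ) (m : ℕ)
    (a : Fin 6) (t : ℝ) : Op j j :=
  devOp H p.shape j t - (64 / 49 * p.piece m t) • bumpOp H j a -
    (diagW H j (fun i => 2 * (q i t - rateInf j) + p.shape.drift t) * excess H c q t +
      excess H c q t * excess H c q t)

theorem continuous_bumpRho (hq : IsBlockRate p.shape j q) (n : ℝ) :
    Continuous (p.bumpRho q j n) := by
  have hBc : Continuous fun t => ∑ i ∈ Finset.range (j + 1), |q i t - rateInf j| :=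
    continuous_finsetSum _ fun i hi =>
      ((hq.ric i (by simpa [Nat.lt_succ_iff] using hi)).continuous.sub continuous_const).abs
  have hrc : Continuous p.rate := p.contDiff_rate.continuous
  exact continuous_const.add (continuous_const.mul ((continuous_const.mul hBc).add
    (continuous_const.mul hrc)))

theorem abs_piece_micro_le {m : ℕ} {a : Fin 6} {z e : ℝ} (hs : p.step m = Step.micro a z e) (t : ℝ) :
    |p.piece m t| ≤ p.levelSum / p.size m ^ 3 := by
  have hn := p.size_ge_one m
  obtain ⟨-, -, hz⟩ := step_micro_facts hs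
  simp only [piece, dur, hs, Step.amp]
  rw [abs_mul, abs_of_nonneg (bump_nonneg _ _ _ _), abs_div,
    abs_of_pos (by positivity : (0 : ℝ) < p.size m ^ 3)]
  exact (mul_le_of_le_one_right (by positivity) (bump_le_one _ _ _ _)).trans (by gcongr)

theorem hasDerivAt_excess_bump (hq : IsBlockRate p.shape j q) (hc : IsShapeCoeff H p.shape j c)
    (m : ℕ) (a : Fin 6) (t : ℝ) :
    HasDerivAt (excess H c q) ((64 / 49 * p.piece m t) • bumpOp H j a + p.bumpRest H c q m a t -
      (2 + 2 * rateInf j) • excess H c q t) t := by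
  refine (hasDerivAt_excess hq hc t).congr_deriv ?_
  have hcomm := excess_diagW (q := q) hc (fun i => q i t) t
  rw [show c.P t = excess H c q t + diagW H j (fun i => q i t) by simp [excess], hcomm]
  refine ContinuousLinearMap.ext fun x => ?_
  ext i
  simp [bumpRest, ContinuousLinearMap.mul_def]
  ring

theorem Ok.norm_bumpRest_le (h : p.Ok) (hq : IsBlockRate p.shape j q)
    (hc : IsShapeCoeff H p.shape j c) {m : ℕ} {a : Fin 6} {z e : ℝ}
    (hs : p.step m = Step.micro a z e) {t : ℝ} (h1 : p.time m ≤ t) (h2 : t ≤ p.time (m + 1)) :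
    ‖p.bumpRest H c q m a t‖ ≤ p.bumpRho q j (p.size m) t := by
  set a₀ := p.time m
  set b₀ := p.time (m + 1)
  set n := p.size m
  have ht : t ∈ Icc a₀ b₀ := ⟨h1, h2⟩
  have hn : 1 ≤ n := p.size_ge_one m
  have hn3 : (0 : ℝ) < n ^ 3 := by positivity
  set J := (j : ℝ) * (j + 2)
  have hJ : 0 ≤ J := by positivity
  have hL := p.one_le_levelSum
  have hCχ := p.chiC_nonneg
  set r := rateInf j
  set δ := p.devB j / n ^ 3
  set B : ℝ → ℝ := fun t => ∑ i ∈ Finset.range (j + 1), |q i t - r|
  have hB0 : ∀ t, 0 ≤ B t := fun t => Finset.sum_nonneg fun i _ => abs_nonneg _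
  have hpl := abs_piece_micro_le hs
  have hγ : p.shape.γ a t = p.piece m t := by
    simp [Params.shape, p.comp_eq_piece (m := m) (s := t) (by linarith [ht.1])
      (by linarith [ht.2]), hs, Step.axis]
  have hne : ∀ b, b ≠ a → p.shape.γ b t = 0 := fun b hb => by
    simp [Params.shape, p.comp_eq_piece (m := m) (s := t) (by linarith [ht.1])
      (by linarith [ht.2]), hs, Step.axis, Ne.symm hb]
  have h1 := norm_devOp_sub_le (H := H) (sh := p.shape) (j := j) (χ₀ := Real.log (8 / 7))
    (t := t) hne (by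
      have := h.abs_comp_some a t
      have e : p.shape.γ a t = p.comp (some a) t := rfl
      rw [e]
      linarith)
  rw [exp_two_L, hγ] at h1
  have hX' : ‖excess H c q t‖ ≤ δ := h.norm_excess_step hq hc ht.1
  have hdiag : ‖diagW H j (fun i => 2 * (q i t - r) + p.shape.drift t)‖ ≤
      2 * B t + 3 * p.rate t := by
    refine norm_diagW_le (by nlinarith [hB0 t, h.rate_nonneg t]) fun i hi => ?_
    refine (abs_add_le _ _).trans (add_le_add ?_ ?_)
    · rw [abs_mul, abs_two]
      refine mul_le_mul_of_nonneg_left ?_ two_pos.le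
      exact Finset.single_le_sum (f := fun i => |q i t - r|) (fun k _ => abs_nonneg _)
        (Finset.mem_range.2 (by omega))
    · rw [p.shape_drift, abs_mul, abs_of_nonneg (h.rate_nonneg t)]
      norm_num
  have e1 : ‖devOp H p.shape j t - (64 / 49 * p.piece m t) • bumpOp H j a‖ ≤
      J * (40 * (p.levelSum / n ^ 3) ^ 2 +
        6 * (p.chiC / n ^ 4) * (p.levelSum / n ^ 3)) := by
    refine h1.trans (mul_le_mul_of_nonneg_left (add_le_add ?_ ?_) hJ)
    · have h2 := (h.exp_chi_bounds t).2
      have h3 : p.piece m t ^ 2 ≤ (p.levelSum / n ^ 3) ^ 2 := by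
        rw [← sq_abs]; exact pow_le_pow_left₀ (abs_nonneg _) (hpl t) 2
      calc Real.exp (2 * p.shape.χ t) * (20 * p.piece m t ^ 2)
          ≤ (64 / 49) * (20 * (p.levelSum / n ^ 3) ^ 2) := by
            gcongr
            exact h2
        _ ≤ 40 * (p.levelSum / n ^ 3) ^ 2 := by linarith [sq_nonneg (p.levelSum / n ^ 3)]
    · exact mul_le_mul (mul_le_mul_of_nonneg_left (h.exp_chi_late ht.1) (by norm_num)) (hpl t)
        (abs_nonneg _) (by positivity)
  have hB2 : 0 ≤ 2 * B t + 3 * p.rate t := (norm_nonneg _).trans hdiag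
  have e2 : ‖diagW H j (fun i => 2 * (q i t - r) + p.shape.drift t) * excess H c q t +
      excess H c q t * excess H c q t‖ ≤ (2 * B t + 3 * p.rate t) * δ + δ * δ :=
    (norm_add_le _ _).trans (add_le_add
      ((norm_mul_le _ _).trans (mul_le_mul hdiag hX' (norm_nonneg _) hB2))
      ((norm_mul_le _ _).trans (mul_le_mul hX' hX' (norm_nonneg _)
        ((norm_nonneg _).trans hX'))))
  calc ‖p.bumpRest H c q m a t‖ ≤ _ := norm_sub_le _ _
    _ ≤ _ := add_le_add e1 e2
    _ = p.bumpRho q j n t := by simp only [bumpRho, B, r, J, δ]; ring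

theorem Ok.integral_bumpRho_le (h : p.Ok) (hq : IsBlockRate p.shape j q) {m : ℕ} {a : Fin 6}
    {z e : ℝ} (hs : p.step m = Step.micro a z e) :
    ∫ t in p.time m..p.time (m + 1), p.bumpRho q j (p.size m) t ≤ p.rhoB j / p.size m ^ 3 := by
  set a₀ := p.time m
  set b₀ := p.time (m + 1)
  set n := p.size m
  have hn : 1 ≤ n := p.size_ge_one m
  have hn3 : (0 : ℝ) < n ^ 3 := by positivity
  set J := (j : ℝ) * (j + 2)
  have hJ : 0 ≤ J := by positivity
  have hL := p.one_le_levelSum
  have hCχ := p.chiC_nonneg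
  have hB : 0 ≤ p.devB j := by have := p.devA_nonneg j; unfold devB; positivity
  have hD := p.durSum_nonneg
  obtain ⟨hlen, hd, -⟩ := step_micro_facts hs
  set r := rateInf j
  set δ := p.devB j / n ^ 3
  set B : ℝ → ℝ := fun t => ∑ i ∈ Finset.range (j + 1), |q i t - r|
  have hBc : Continuous B := continuous_finsetSum _ fun i hi =>
    ((hq.ric i (by simpa [Nat.lt_succ_iff] using hi)).continuous.sub continuous_const).abs
  have hrc : Continuous p.rate := p.contDiff_rate.continuous
  show ∫ t in a₀..b₀, (J * (40 * (p.levelSum / n ^ 3) ^ 2 +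
    6 * (p.chiC / n ^ 4) * (p.levelSum / n ^ 3)) + δ ^ 2 + δ * (2 * B t + 3 * p.rate t)) ≤ _
  rw [intervalIntegral.integral_add intervalIntegrable_const
    ((by fun_prop : Continuous fun t => δ * (2 * B t + 3 * p.rate t)).intervalIntegrable _ _),
    intervalIntegral.integral_const, intervalIntegral.integral_const_mul,
    intervalIntegral.integral_add ((hBc.const_mul 2).intervalIntegrable _ _)
      ((hrc.const_mul 3).intervalIntegrable _ _), intervalIntegral.integral_const_mul,
    intervalIntegral.integral_const_mul,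
    intervalIntegral.integral_eq_sub_of_hasDerivAt (fun t _ => p.hasDerivAt_chi t)
      (hrc.intervalIntegrable _ _), smul_eq_mul, hlen]
  have hBint : ∫ t in a₀..b₀, B t ≤ ((j : ℝ) + 1) * p.rateB j := by
    simp only [B]
    have hint : ∀ i ∈ Finset.range (j + 1),
        IntervalIntegrable (fun u => |q i u - r|) volume a₀ b₀ := fun i hi =>
      (((hq.ric i (by simpa [Nat.lt_succ_iff] using hi)).continuous.sub
        continuous_const).abs).intervalIntegrable _ _
    rw [intervalIntegral.integral_finsetSum hint]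
    refine (Finset.sum_le_card_nsmul _ _ (p.rateB j) fun i hi =>
      h.integral_rate_dist_le hq (by simpa [Nat.lt_succ_iff] using hi) hs).trans ?_
    simp
  have hχ : 3 * (p.chi b₀ - p.chi a₀) ≤ 1 := by
    linarith [log_87.2, (h.chi_bounds a₀).1, (h.chi_bounds b₀).2]
  rw [rhoB, add_div, add_div]
  refine add_le_add ?_ ?_
  · rw [mul_add]
    refine add_le_add ?_ ?_
    · have e1 : p.chiC / n ^ 4 ≤ p.chiC / n ^ 3 :=
        div_le_div_of_nonneg_left hCχ hn3 (pow_le_pow_right₀ hn (by norm_num))
      calc (2 + max e 0) * n ^ 3 * (J * (40 * (p.levelSum / n ^ 3) ^ 2 +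
            6 * (p.chiC / n ^ 4) * (p.levelSum / n ^ 3)))
          ≤ p.durSum * n ^ 3 * (J * (40 * (p.levelSum / n ^ 3) ^ 2 +
            6 * (p.chiC / n ^ 3) * (p.levelSum / n ^ 3))) := by gcongr
        _ = _ := by field_simp; simp only [J]; ring
    · calc (2 + max e 0) * n ^ 3 * δ ^ 2 ≤ p.durSum * n ^ 3 * δ ^ 2 := by gcongr
        _ = _ := by simp only [δ]; field_simp
  · rw [mul_comm (p.devB j), mul_div_assoc, mul_comm δ]
    gcongr

/-- One bump multiplies `gam` by the exponential of its first order effect, up to `O(n^-3)`. -/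
theorem Ok.micro_near (h : p.Ok) (hq : IsBlockRate p.shape j q) (hc : IsShapeCoeff H p.shape j c)
    {m : ℕ} {a : Fin 6} {z e : ℝ} (hs : p.step m = Step.micro a z e) :
    ‖gam H c q (p.time (m + 1)) * gamInv H c q (p.time m) -
        stepOp H j (Step.micro a z e)‖ ≤ p.stepC j / p.size m ^ 3 := by
  set a₀ := p.time m
  set b₀ := p.time (m + 1)
  set n := p.size m
  have hn : 1 ≤ n := p.size_ge_one m
  have hab : a₀ ≤ b₀ := (p.time_strictMono (Nat.lt_succ_self m)).le
  have hn3 : (0 : ℝ) < n ^ 3 := by positivity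
  set J := (j : ℝ) * (j + 2)
  have hJ : 0 ≤ J := by positivity
  have hL := p.one_le_levelSum
  have hD := p.durSum_nonneg
  have hCχ := p.chiC_nonneg
  have hB : 0 ≤ p.devB j := by have := p.devA_nonneg j; unfold devB; positivity
  have hR : 0 ≤ p.rateB j := by unfold rateB speed; positivity
  have hρB : 0 ≤ p.rhoB j := by unfold rhoB; positivity
  set δ := p.devB j / n ^ 3
  have hδ1 : δ ≤ p.devB j := div_le_self hB (one_le_pow₀ hn)
  set S := (2 * p.levelSum * (p.durSum + 1)) * (6 * J)
  set T := Real.exp (2 * S) * (p.devB j + p.rhoB j)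
  have hstep : p.stepC j = Real.exp S * (T * Real.exp T + 6 * J * (2 * p.levelSum)) +
      p.devB j * Real.exp (p.devB j) := rfl
  obtain ⟨hlen, hd, hz⟩ := step_micro_facts hs
  set g := fun t => 64 / 49 * p.piece m t
  have hgc : Continuous g := (p.contDiff_piece m).continuous.const_mul _
  set η := 2 * p.levelSum / n ^ 3
  have hpl := abs_piece_micro_le hs
  have hgη : ∀ t, |g t| ≤ η := fun t => by
    simp only [g, η, abs_mul]
    have := hpl t
    rw [mul_div_assoc, abs_of_pos (by norm_num : (0 : ℝ) < 64 / 49)]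
    linarith [abs_nonneg (p.piece m t)]
  set r := rateInf j
  obtain ⟨hr0, hr1⟩ := rateInf_bounds j
  set ρ := p.bumpRho q j n
  set G₁ := p.bumpRest H c q m a
  have hX : ∀ t ∈ Icc a₀ b₀, HasDerivAt (excess H c q)
      (g t • bumpOp H j a + G₁ t - (2 + 2 * r) • excess H c q t) t :=
    fun t _ => hasDerivAt_excess_bump hq hc m a t
  have hG₁ : ∀ t ∈ Icc a₀ b₀, ‖G₁ t‖ ≤ ρ t :=
    fun t ht => h.norm_bumpRest_le hq hc hs ht.1 ht.2
  have hρc : Continuous ρ := continuous_bumpRho hq n
  have hnear := bump_near (C := bumpOp H j a) (X := excess H c q) (G₁ := G₁) (g := g) (ρ := ρ)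
    (V := fun t => gam H c q t * gamInv H c q a₀) (c₀ := 2 + 2 * r) (δ := δ) (η := η) hab
    (one_le_rate_den j) hgc (fun t _ => hgη t) (by positivity) hX
    (h.norm_excess_step hq hc le_rfl) hρc hG₁ (gam_mul_gamInv a₀)
    (fun t _ => ((hasDerivAt_gam hq hc t).mul_const _).congr_deriv (mul_assoc _ _ _))
  have hu : (∫ t in a₀..b₀, g t) / (2 + 2 * r) = kappa j * z * bumpMass e := by
    simp only [g, intervalIntegral.integral_const_mul, a₀, b₀, p.integral_piece hs, kappa, r]
    ring
  rw [hu] at hnear
  simp only [stepOp]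
  refine hnear.trans ?_
  have hρ : ∫ t in a₀..b₀, ρ t ≤ p.rhoB j / n ^ 3 := h.integral_bumpRho_le hq hs
  have hη : η * (b₀ - a₀) + η ≤ 2 * p.levelSum * (p.durSum + 1) := by
    rw [hlen, mul_add (2 * p.levelSum), mul_one]
    refine add_le_add ?_ (div_le_self (by positivity) (one_le_pow₀ hn))
    calc η * ((2 + max e 0) * n ^ 3) = 2 * p.levelSum * (2 + max e 0) := by
          simp only [η]; field_simp
      _ ≤ _ := by gcongr
  have hS : (η * (b₀ - a₀) + η) * ‖bumpOp H j a‖ ≤ S :=
    mul_le_mul hη (norm_bumpOp_le a) (norm_nonneg _) (by positivity)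
  have hρ0 : 0 ≤ ∫ t in a₀..b₀, ρ t :=
    intervalIntegral.integral_nonneg hab fun t ht => (norm_nonneg _).trans (hG₁ t ht)
  set x := Real.exp (2 * ((η * (b₀ - a₀) + η) * ‖bumpOp H j a‖)) * (δ + ∫ t in a₀..b₀, ρ t)
  have hδ0 : 0 ≤ δ := by positivity
  have hx0 : 0 ≤ x := mul_nonneg (Real.exp_pos _).le (add_nonneg hδ0 hρ0)
  have hxT : x ≤ T / n ^ 3 := by
    simp only [x, T]
    rw [mul_div_assoc]
    refine mul_le_mul (Real.exp_le_exp.2 (by linarith)) ?_ (add_nonneg hδ0 hρ0) (Real.exp_pos _).le
    rw [add_div]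
    exact add_le_add le_rfl hρ
  have hT : 0 ≤ T := by positivity
  calc Real.exp ((η * (b₀ - a₀) + η) * ‖bumpOp H j a‖) *
        (Real.exp x - 1 + ‖bumpOp H j a‖ * η)
      ≤ Real.exp S * (T / n ^ 3 * Real.exp T + 6 * J * η) := by
        refine mul_le_mul (Real.exp_le_exp.2 hS) (add_le_add ?_ ?_) ?_ (Real.exp_pos _).le
        · exact (exp_sub_one_le hx0 (hxT.trans (div_le_self hT (one_le_pow₀ hn)))).trans
            (mul_le_mul_of_nonneg_right hxT (Real.exp_pos _).le)
        · exact mul_le_mul_of_nonneg_right (norm_bumpOp_le a) (by positivity)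
        · have := Real.add_one_le_exp x
          have : 0 ≤ ‖bumpOp H j a‖ * η := by positivity
          linarith
    _ = Real.exp S * (T * Real.exp T + 6 * J * (2 * p.levelSum)) / n ^ 3 := by
        simp only [η]; ring
    _ ≤ p.stepC j / n ^ 3 := by
        refine div_le_div_of_nonneg_right ?_ hn3.le
        rw [hstep]
        exact le_add_of_nonneg_right (by positivity)

/-- One step multiplies `gam` by `stepOp`, up to `O(n^-3)`. -/
theorem Ok.step_near (h : p.Ok) (hq : IsBlockRate p.shape j q) (hc : IsShapeCoeff H p.shape j c)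
    (m : ℕ) :
    ‖gam H c q (p.time (m + 1)) * gamInv H c q (p.time m) - stepOp H j (p.step m)‖ ≤
      p.stepC j / p.size m ^ 3 := by
  set a₀ := p.time m
  set b₀ := p.time (m + 1)
  set n := p.size m
  have hn : 1 ≤ n := p.size_ge_one m
  have hab : a₀ ≤ b₀ := (p.time_strictMono (Nat.lt_succ_self m)).le
  have hn3 : (0 : ℝ) < n ^ 3 := by positivity
  set J := (j : ℝ) * (j + 2)
  have hJ : 0 ≤ J := by positivity
  have hL := p.one_le_levelSum
  have hD := p.durSum_nonneg
  have hCχ := p.chiC_nonneg
  have hB : 0 ≤ p.devB j := by have := p.devA_nonneg j; unfold devB; positivity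
  have hR : 0 ≤ p.rateB j := by unfold rateB speed; positivity
  have hρB : 0 ≤ p.rhoB j := by unfold rhoB; positivity
  set δ := p.devB j / n ^ 3
  have hδ1 : δ ≤ p.devB j := div_le_self hB (one_le_pow₀ hn)
  set S := (2 * p.levelSum * (p.durSum + 1)) * (6 * J)
  set T := Real.exp (2 * S) * (p.devB j + p.rhoB j)
  have hstep : p.stepC j = Real.exp S * (T * Real.exp T + 6 * J * (2 * p.levelSum)) +
      p.devB j * Real.exp (p.devB j) := rfl
  cases hax : (p.step m).axis with
  | none =>
    rw [(not_micro_of_axis hax H j).1]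
    have := (norm_transfer_sub_one_le hq hc (a := a₀) (t := b₀)
      (F := fun x => -(δ * Real.exp (-(x - a₀)))) hab
      (fun x => by simpa using ((((hasDerivAt_id' x).sub_const a₀).neg).exp.const_mul δ).fun_neg)
      (fun x hx => h.excess_decay hq hc hax hx.1 hx.2)).1
    simp only [sub_self, neg_zero, Real.exp_zero, mul_one, sub_neg_eq_add] at this
    refine this.trans ?_
    have hδ0 : 0 ≤ δ := by positivity
    have hlast : Real.exp δ - 1 ≤ δ * Real.exp (p.devB j) := exp_sub_one_le hδ0 hδ1
    refine le_trans (le_trans (sub_le_sub_right (Real.exp_le_exp.2 (show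
      -(δ * Real.exp (-(b₀ - a₀))) + δ ≤ δ by linarith [mul_nonneg hδ0 (Real.exp_pos (-(b₀ - a₀))).le]))
      1) hlast) ?_
    rw [show δ * Real.exp (p.devB j) = p.devB j * Real.exp (p.devB j) / n ^ 3 by
      simp only [δ]; ring]
    refine div_le_div_of_nonneg_right ?_ hn3.le
    rw [hstep]
    exact le_add_of_nonneg_left (by positivity)
  | some a =>
    obtain ⟨z, e, hs⟩ : ∃ z e, p.step m = Step.micro a z e := by
      cases hs : p.step m <;> simp_all [Step.axis]
    rw [hs]
    exact h.micro_near hq hc hs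

end Params

end

end Vale.Agent.P225.Sched
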